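import Crest.Agent.N325.Krv.Round
import Crest.Agent.N325.M3.Split

/-! KRV cut-matching game: the integer (fixed point) walk on arrays over `ℕ`, and the admissibility
of a matching between the two halves of the units sorted by the integer walk. -/

set_option autoImplicit false

namespace Crest.Agent.N325.Krv

open Finset Crest.Agent.N325.Split

/-- Integer lazy walk; the head of the list is the most recent matching. -/
def walkN : List (ℕ → ℕ) → (ℕ → ℕ) → ℕ → ℕ
  | [], x => x
  | π :: l, x => fun i => (walkN l x i + walkN l x (π i)) / 2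

@[simp] theorem walkN_nil (x : ℕ → ℕ) : walkN [] x = x := rfl
theorem walkN_cons (π : ℕ → ℕ) (l : List (ℕ → ℕ)) (x : ℕ → ℕ) (i : ℕ) :
    walkN (π :: l) x i = (walkN l x i + walkN l x (π i)) / 2 := rfl

theorem walkN_le (l : List (ℕ → ℕ)) {x : ℕ → ℕ} {K : ℕ} (h : ∀ i, x i ≤ K) (i : ℕ) :
    walkN l x i ≤ K := by
  induction l generalizing i with
  | nil => exact h i
  | cons π l ih => rw [walkN_cons]; have := ih i; have := ih (π i); omega

/-- All arrays of the list map `[0, N)` into itself. -/
def Closed (N : ℕ) (l : List (ℕ → ℕ)) : Prop := ∀ π ∈ l, ∀ i < N, π i < N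

/-- The integer walk only depends on the first `N` entries of its data. -/
theorem walkN_congr {N : ℕ} {l : List (ℕ → ℕ)} (hl : Closed N l) {x y : ℕ → ℕ}
    (h : ∀ i < N, x i = y i) {i : ℕ} (hi : i < N) : walkN l x i = walkN l y i := by
  induction l generalizing i with
  | nil => exact h i hi
  | cons π l ih =>
    have hl' : Closed N l := fun p hp => hl p (by simp [hp])
    rw [walkN_cons, walkN_cons, ih hl' hi, ih hl' (hl π (by simp) i hi)]

theorem walkN_approx {N : ℕ} {l : List (ℕ → ℕ)} (hl : Closed N l) (x : ℕ → ℕ) (i : Fin N) :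
    |(walkN l x i : ℝ) - walk (l.map (finPi N)) (fun j : Fin N => (x j : ℝ)) i| ≤ l.length / 2 := by
  induction l generalizing i with
  | nil => simp
  | cons π l ih =>
    have hl' : Closed N l := fun p hp => hl p (by simp [hp])
    have hπ : ∀ i < N, π i < N := hl π (by simp)
    have h1 := abs_le.1 (ih hl' i)
    have h2 := abs_le.1 (ih hl' (finPi N π i))
    rw [finPi_val hπ] at h2
    rw [List.map_cons, walk_cons, walkN_cons, List.length_cons]
    set a := walkN l x i
    set b := walkN l x (π i)
    have e1 : (2 : ℝ) * (((a + b) / 2 : ℕ) : ℝ) ≤ a + b := by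
      have : 2 * ((a + b) / 2) ≤ a + b := by omega
      exact_mod_cast this
    have e2 : (a : ℝ) + b ≤ 2 * (((a + b) / 2 : ℕ) : ℝ) + 1 := by
      have : a + b ≤ 2 * ((a + b) / 2) + 1 := by omega
      exact_mod_cast this
    push_cast [-Nat.cast_div_charZero]
    rw [abs_le]
    constructor <;> linarith [h1.1, h1.2, h2.1, h2.2]

/-- (K3) started at `K * (lowest bit)`, the integer walk approximates the walk of the signs. -/
theorem walkN_sign {N : ℕ} {l : List (ℕ → ℕ)} (hl : Closed N l) (K : ℕ) (b : ℕ → ℕ) (i : Fin N) :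
    |(walkN l (fun j => K * (b j % 2)) i : ℝ) -
      ((K : ℝ) / 2 * walk (l.map (finPi N)) (fun j : Fin N => sgN (b j)) i + K / 2)| ≤
      l.length / 2 := by
  have := walkN_approx hl (fun j => K * (b j % 2)) i
  rw [← walk_affine]
  convert this using 4 with j
  simp only [sgN]; push_cast; ring

theorem abs_walk_sgN_le {ι : Type*} (l : List (ι → ι)) (b : ι → ℕ) (i : ι) :
    |walk l (fun j => sgN (b j)) i| ≤ 1 := by
  have h : ∀ x, -1 ≤ sgN x ∧ sgN x ≤ 1 := fun x => by
    rcases Nat.mod_two_eq_zero_or_one x with e | e <;> simp only [sgN, e] <;> norm_num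
  exact abs_le.2 ⟨walk_ge l (fun j => (h _).1) i, walk_le l (fun j => (h _).2) i⟩

/-- A perfect matching `P` between the two halves of the units, sorted by the integer walk, is an
admissible answer of the game with error `3 T / K`. -/
theorem admissible {N K T : ℕ} (hN : 0 < N) (hK : 0 < K) {l : List (ℕ → ℕ)} (hl : Closed N l)
    (hT : l.length ≤ T) (hTK : T ≤ K) (b : ℕ → ℕ) {L : List ℕ} {P : List (ℕ × ℕ)}
    (hP : Matches L P) (hL : L.Perm (List.range N))
    (hs : L.Pairwise fun i j =>
      walkN l (fun j => K * (b j % 2)) i ≤ walkN l (fun j => K * (b j % 2)) j) :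
    ∃ η : ℝ, ∀ i : Fin N,
      (walk (l.map (finPi N)) (fun j : Fin N => sgN (b j)) i - η) *
        (walk (l.map (finPi N)) (fun j : Fin N => sgN (b j)) (finPi N (piOf P) i) - η) ≤
        3 * T / K := by
  have hK' : (0 : ℝ) < K := by exact_mod_cast hK
  obtain ⟨η, h⟩ := hP.split hN hL hs (abs_walk_sgN_le (l.map (finPi N)) fun j : Fin N => b j)
    (c := (K : ℝ) / 2) (b := (K : ℝ) / 2) (t := (l.length : ℝ) / 2) (by positivity)
    (walkN_sign hl K b)
  refine ⟨η, fun i => (h i).trans ?_⟩
  have e : (l.length : ℝ) / 2 / (K / 2) = l.length / K := by field_simp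
  have h1 : (l.length : ℝ) / K ≤ T / K := by gcongr
  have h2 : (T : ℝ) / K ≤ 1 := by rw [div_le_one hK']; exact_mod_cast hTK
  have h3 : (0 : ℝ) ≤ l.length / K := by positivity
  rw [e, mul_div_assoc]
  nlinarith

end Crest.Agent.N325.Krv
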