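import Mathlib

/-! Random signs on a finite product space: second moment and Hoeffding tail, as plain sums. -/

set_option autoImplicit false

namespace Crest.Agent.N325.Krv

open Finset

/-- `σ` is a balanced sign function on the finite set of letters `Ω`. -/
structure IsSign {Ω : Type*} [Fintype Ω] (σ : Ω → ℝ) : Prop where
  sq : ∀ ω, σ ω = 1 ∨ σ ω = -1
  bal : ∑ ω, σ ω = 0

variable {ι Ω : Type*} [Fintype ι] [DecidableEq ι] [Fintype Ω] {σ : Ω → ℝ}

theorem IsSign.mul_self (h : IsSign σ) (ω : Ω) : σ ω * σ ω = 1 := by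
  rcases h.sq ω with e | e <;> rw [e] <;> norm_num

theorem sum_prod_pi (g : ι → Ω → ℝ) : ∑ r : ι → Ω, ∏ j, g j (r j) = ∏ j, ∑ ω, g j ω := by
  rw [Finset.prod_univ_sum]; simp

theorem sum_sign_mul (h : IsSign σ) (j k : ι) :
    ∑ r : ι → Ω, σ (r j) * σ (r k) = if j = k then (Fintype.card (ι → Ω) : ℝ) else 0 := by
  split_ifs with e
  · subst e; simp [h.mul_self]
  · have := sum_prod_pi (ι := ι)
      (fun m ω => (if m = j then σ ω else 1) * (if m = k then σ ω else 1))
    simp only [Finset.prod_mul_distrib, Finset.prod_ite_eq', Finset.mem_univ, if_true] at this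
    rw [this]
    refine Finset.prod_eq_zero (Finset.mem_univ j) ?_
    simp [e, h.bal]

theorem sum_sq_signs (h : IsSign σ) (d : ι → ℝ) :
    ∑ r : ι → Ω, (∑ j, d j * σ (r j)) ^ 2 = Fintype.card (ι → Ω) * ∑ j, d j ^ 2 := by
  have e : ∀ r : ι → Ω, (∑ j, d j * σ (r j)) ^ 2 =
      ∑ j, ∑ k, d j * d k * (σ (r j) * σ (r k)) := by
    intro r
    rw [sq, Finset.sum_mul_sum]
    exact Finset.sum_congr rfl fun j _ => Finset.sum_congr rfl fun k _ => by ring
  simp only [e]
  rw [Finset.sum_comm, Finset.mul_sum]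
  refine Finset.sum_congr rfl fun j _ => ?_
  rw [Finset.sum_comm]
  simp only [← Finset.mul_sum, sum_sign_mul h, mul_ite, mul_zero, Finset.sum_ite_eq,
    Finset.mem_univ, if_true]
  ring

theorem sum_exp_sign (h : IsSign σ) (t : ℝ) :
    ∑ ω, Real.exp (t * σ ω) = Fintype.card Ω * Real.cosh t := by
  have e : ∀ ω, Real.exp (t * σ ω) = Real.cosh t + Real.sinh t * σ ω := by
    intro ω
    rcases h.sq ω with e | e <;> rw [e]
    · simp
    · have := Real.cosh_sub_sinh t
      simp only [mul_neg, mul_one]; linarith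
  simp only [e, Finset.sum_add_distrib, ← Finset.mul_sum, h.bal]
  simp

theorem sum_exp_signs (h : IsSign σ) (d : ι → ℝ) (θ : ℝ) :
    ∑ r : ι → Ω, Real.exp (θ * ∑ j, d j * σ (r j)) ≤
      Fintype.card (ι → Ω) * Real.exp (θ ^ 2 * (∑ j, d j ^ 2) / 2) := by
  have e : ∀ r : ι → Ω, Real.exp (θ * ∑ j, d j * σ (r j)) =
      ∏ j, Real.exp (θ * d j * σ (r j)) := by
    intro r
    rw [← Real.exp_sum, Finset.mul_sum]
    exact congrArg _ (Finset.sum_congr rfl fun j _ => by ring)
  simp only [e]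
  rw [sum_prod_pi (fun j ω => Real.exp (θ * d j * σ ω))]
  simp only [sum_exp_sign h]
  rw [Finset.prod_mul_distrib, Finset.prod_const, Finset.card_univ, Fintype.card_fun]
  push_cast
  refine mul_le_mul_of_nonneg_left ?_ (by positivity)
  calc ∏ j, Real.cosh (θ * d j) ≤ ∏ j, Real.exp ((θ * d j) ^ 2 / 2) :=
        Finset.prod_le_prod (fun j _ => (Real.cosh_pos _).le) fun j _ => Real.cosh_le_exp_half_sq _
    _ = _ := by
        rw [← Real.exp_sum, Finset.mul_sum, Finset.sum_div]
        exact congrArg _ (Finset.sum_congr rfl fun j _ => by ring)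

/-- Hoeffding's tail bound in squared form. -/
theorem sum_ind_tail (h : IsSign σ) (d : ι → ℝ) {Λ : ℝ} (hΛ : 0 ≤ Λ) :
    ∑ r : ι → Ω, (if Λ * ∑ j, d j ^ 2 < (∑ j, d j * σ (r j)) ^ 2 then (1 : ℝ) else 0) ≤
      Fintype.card (ι → Ω) * (2 * Real.exp (-(Λ / 2))) := by
  set D := ∑ j, d j ^ 2 with hD
  have D0 : 0 ≤ D := Finset.sum_nonneg fun _ _ => sq_nonneg _
  rcases D0.eq_or_lt with hz | hpos
  · have hd : ∀ j, d j = 0 := fun j => by
      have := (Finset.sum_eq_zero_iff_of_nonneg fun j _ => sq_nonneg (d j)).1 hz.symm j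
        (Finset.mem_univ j)
      simpa using this
    simp only [← hz, hd, mul_zero, zero_mul, Finset.sum_const_zero]
    simp only [ne_eq, OfNat.ofNat_ne_zero, not_false_eq_true, zero_pow, lt_self_iff_false, if_false,
      Finset.sum_const_zero]
    positivity
  set θ := Real.sqrt (Λ / D) with hθ
  have θ0 : 0 ≤ θ := Real.sqrt_nonneg _
  have θ2 : θ ^ 2 * D = Λ := by
    rw [hθ, Real.sq_sqrt (by positivity)]; field_simp
  have key : ∀ X : ℝ, (if Λ * D < X ^ 2 then (1 : ℝ) else 0) ≤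
      Real.exp (-Λ) * (Real.exp (θ * X) + Real.exp (-θ * X)) := by
    intro X
    split_ifs with hx
    · have h1 : Λ ^ 2 ≤ (θ * |X|) ^ 2 := by
        rw [mul_pow, sq_abs]
        calc Λ ^ 2 = θ ^ 2 * (Λ * D) := by rw [sq Λ]; nth_rewrite 1 [← θ2]; ring
          _ ≤ θ ^ 2 * X ^ 2 := mul_le_mul_of_nonneg_left hx.le (sq_nonneg _)
      have h2 : Λ ≤ θ * |X| := (abs_le_of_sq_le_sq' h1 (by positivity)).2
      have h3 : Real.exp Λ ≤ Real.exp (θ * X) + Real.exp (-θ * X) := by
        rcases abs_cases X with ⟨e, _⟩ | ⟨e, _⟩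
        · have := Real.exp_le_exp.2 (e ▸ h2)
          have := Real.exp_pos (-θ * X); linarith
        · have h4 : Λ ≤ -θ * X := by rw [e] at h2; linarith
          have := Real.exp_le_exp.2 h4
          have := Real.exp_pos (θ * X); linarith
      calc (1 : ℝ) = Real.exp (-Λ) * Real.exp Λ := by rw [← Real.exp_add]; simp
        _ ≤ _ := mul_le_mul_of_nonneg_left h3 (Real.exp_pos _).le
    · positivity
  have a1 := sum_exp_signs h d θ
  have a2 := sum_exp_signs h d (-θ)
  rw [neg_sq] at a2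
  rw [← hD, θ2] at a1 a2
  calc _ ≤ ∑ r : ι → Ω, Real.exp (-Λ) * (Real.exp (θ * ∑ j, d j * σ (r j)) +
          Real.exp (-θ * ∑ j, d j * σ (r j))) := Finset.sum_le_sum fun r _ => key _
    _ ≤ Real.exp (-Λ) * (2 * (Fintype.card (ι → Ω) * Real.exp (Λ / 2))) := by
        rw [← Finset.mul_sum, Finset.sum_add_distrib]
        exact mul_le_mul_of_nonneg_left (by linarith) (Real.exp_pos _).le
    _ = _ := by
        have : Real.exp (-(Λ / 2)) = Real.exp (-Λ) * Real.exp (Λ / 2) := by
          rw [← Real.exp_add]; congr 1; ring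
        rw [this]; ring

/-- Cauchy-Schwarz: a signed sum is at most `√n` times the Euclidean norm. -/
theorem sq_signs_le (h : IsSign σ) (d : ι → ℝ) (r : ι → Ω) :
    (∑ j, d j * σ (r j)) ^ 2 ≤ Fintype.card ι * ∑ j, d j ^ 2 := by
  have := sq_sum_le_card_mul_sum_sq (s := (Finset.univ : Finset ι)) (f := fun j => d j * σ (r j))
  rw [Finset.card_univ] at this
  refine this.trans (le_of_eq ?_)
  congr 1
  refine Finset.sum_congr rfl fun j _ => ?_
  rw [mul_pow, sq (σ _), h.mul_self, mul_one]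

/-- Sign of a Boolean. -/
def sgB (b : Bool) : ℝ := if b then 1 else -1

theorem isSign_sgB : IsSign sgB := ⟨fun b => by cases b <;> simp [sgB], by simp [sgB]⟩

/-- Sign of a number: its lowest bit. -/
def sgN (x : ℕ) : ℝ := 2 * ((x % 2 : ℕ) : ℝ) - 1

theorem sum_range_sgN (k : ℕ) : ∑ x ∈ Finset.range (2 * k), sgN x = 0 := by
  induction k with
  | zero => simp
  | succ k ih =>
    rw [show 2 * (k + 1) = 2 * k + 1 + 1 by ring, Finset.sum_range_succ, Finset.sum_range_succ, ih]
    have e1 : (2 * k) % 2 = 0 := by omega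
    have e2 : (2 * k + 1) % 2 = 1 := by omega
    simp only [sgN, e1, e2]; norm_num

/-- The lowest bit of a uniform element of `Fin M`, `M` even, is a balanced sign. -/
theorem isSign_sgN {M : ℕ} (hM : 2 ∣ M) : IsSign fun x : Fin M => sgN x := by
  refine ⟨fun x => ?_, ?_⟩
  · rcases Nat.mod_two_eq_zero_or_one x with e | e <;> simp only [sgN, e] <;> norm_num
  · obtain ⟨k, rfl⟩ := hM
    rw [Fin.sum_univ_eq_sum_range (fun x => sgN x) (2 * k), sum_range_sgN]

end Crest.Agent.N325.Krv
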