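import Crest.Agent.N325.Krv.PairR
import Crest.Agent.N325.Lf.Cut0
import Crest.Agent.N325.Lst.ListR

/-!
# Row 325 (helper27): the matching player on top of a flow-or-cut routine
-/

set_option autoImplicit false
open Finset Function

namespace Crest.Agent.N325.Tok

variable {g : Gl}

/-- from a flow to pairs -/
def flowPairs (loc : Arr ℕ) (src dst : ℕ → ℕ) (Es A B : List ℕ) (f : Arr ℤ) :
    R (List (ℕ × ℕ) × List ℕ × List ℕ) :=
  arcsR src dst f Es >>= fun L => pairR loc L A B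

/-- the answer of the matching player: a perfect matching up to `z` left over units, which crosses
every vertex set `U` at most `c U` times -/
structure MPok (loc : ℕ → ℕ) (z : ℕ) (c : Finset ℕ → ℕ) (A B : List ℕ)
    (o : List (ℕ × ℕ) × List ℕ × List ℕ) : Prop where
  fst : (o.1.map Prod.fst ++ o.2.1).Perm A
  snd : (o.1.map Prod.snd ++ o.2.2).Perm B
  fk : o.2.1.length ≤ z
  crs : ∀ U : Finset ℕ,
    o.1.countP (fun p => decide (loc p.1 ∈ U) != decide (loc p.2 ∈ U)) ≤ c U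

theorem dv_flowL (N : Lf.Net) {Es : List ℕ} (h : Es.Nodup) (f : ℕ → ℤ) (v : ℕ) :
    dv (flowL N.src N.dst f Es) v = N.dv Es.toFinset f v := by
  rw [Lf.Net.dv, List.sum_toFinset _ h, dv, flowL, List.map_map]; rfl

theorem sp_flowPairs {loc : Arr ℕ} {Es A B : List ℕ} {f : Arr ℤ} (N : Lf.Net)
    {V : Finset ℕ} (c : ℕ → ℕ) {z : ℕ}
    (ha : ∀ v, N.a v = A.countP fun i => loc.get i = v)
    (hb : ∀ v, N.b v = B.countP fun i => loc.get i = v) (nE : Es.Nodup) (nB : B.Nodup)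
    (hE : ∀ e ∈ Es, N.src e ∈ V ∧ N.dst e ∈ V) (hA : ∀ i ∈ A, loc.get i ∈ V)
    (hB : ∀ i ∈ B, loc.get i ∈ V) (hf : ∀ e ∈ Es, (f.get e).natAbs ≤ c e)
    (hz : N.exc V Es.toFinset f.get ≤ z) :
    Sp g (flowPairs loc N.src N.dst Es A B f) fun o t =>
      MPok loc.get z (fun U => N.crs Es.toFinset c U (V \ U)) A B o ∧
      t ≤ 3 * ∑ e ∈ Es.toFinset, c e + 3 * Es.length + 3 * A.length + 2 * B.length + 8 := by
  have hn : ∀ v ∈ V, v < V.sup id + 1 := fun v hv => Nat.lt_succ_of_le (le_sup (f := id) hv)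
  generalize V.sup id + 1 = n at hn
  refine (sp_arcsR N.src N.dst f Es).bind ?_
  rintro L t ⟨hL, ht⟩
  have hF : ∀ e ∈ flowL N.src N.dst f.get Es, e.1 < n ∧ e.2.1 < n := by
    simp only [flowL, List.forall_mem_map]
    exact fun e he => ⟨hn _ (hE e he).1, hn _ (hE e he).2⟩
  have hsum : (Es.map fun e => (f.get e).natAbs).sum ≤ ∑ e ∈ Es.toFinset, c e := by
    rw [List.sum_toFinset _ nE]; exact List.sum_le_sum hf
  have hlen : L.length = (Es.map fun e => (f.get e).natAbs).sum := by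
    rw [hL.length_eq, length_arcs, flowL, List.map_map]; rfl
  refine (sp_pairR (n := n) (fun i hi => hn _ (hA i hi)) (fun i hi => hn _ (hB i hi))
    (fun p hp => arcs_lt hF p (hL.mem_iff.1 hp)) nB).mono ?_
  rintro o u ⟨h, hu⟩
  replace h := h.perm hL (.refl _) (.refl _)
  refine ⟨⟨h.fst, h.snd, ?_, fun U => ?_⟩, by omega⟩
  · have h1 := h.fk
    simp only [dv_arcs, dv_flowL N nE, ← ha, ← hb] at h1
    rw [← sum_subset (s₁ := V) (fun v hv => mem_range.2 (hn v hv)) fun v _ hv => ?_] at h1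
    · have : ((∑ v ∈ V, ((N.a v : ℤ) + N.dv Es.toFinset f.get v - N.b v).toNat : ℕ) : ℤ) =
          N.exc V Es.toFinset f.get := by
        rw [Nat.cast_sum]; exact sum_congr rfl fun v _ => Int.toNat_eq_max _
      omega
    · have e1 : N.a v = 0 := by
        rw [ha, List.countP_eq_zero]
        intro i hi e
        exact hv (of_decide_eq_true e ▸ hA i hi)
      have e2 : N.dv Es.toFinset f.get v = 0 := sum_eq_zero fun e he => by
        have := hE e (List.mem_toFinset.1 he)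
        rw [if_neg fun k : N.dst e = v => hv (k ▸ this.2),
          if_neg fun k : N.src e = v => hv (k ▸ this.1), sub_zero]
      omega
  · refine (h.crs fun v => decide (v ∈ U)).trans ?_
    rw [cross_arcs _ fun v => decide (v ∈ U), Lf.Net.crs, List.sum_toFinset _ nE, flowL, List.map_map]
    refine List.sum_le_sum fun e he => ?_
    have := hf e he
    obtain ⟨a, b⟩ := hE e he
    by_cases h1 : N.src e ∈ U <;> by_cases h2 : N.dst e ∈ U <;> simp [h1, h2, a, b, this]

/-- **the matching player**; `lf (a, b, W)` returns a cut or a flow from the supplies `a` to the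
sinks `b`; `W` lists the vertices with supply -/
def mp {β : Type} (lf : Arr ℕ × Arr ℕ × List ℕ → R (β ⊕ Arr ℤ)) (loc : Arr ℕ) (src dst : ℕ → ℕ)
    (Es A B : List ℕ) : R (β ⊕ (List (ℕ × ℕ) × List ℕ × List ℕ)) := do
  let a ← cntR loc A
  let b ← cntR loc B
  let W ← mapP loc.get A
  let r ← lf (a, b, W)
  Sum.casesOn r (fun c => pure (.inl c)) fun f =>
    flowPairs loc src dst Es A B f >>= fun o => pure (.inr o)

theorem sp_mp {β : Type} {lf : Arr ℕ × Arr ℕ × List ℕ → R (β ⊕ Arr ℤ)} {loc : Arr ℕ}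
    {Es A B : List ℕ} (N : Lf.Net) {V : Finset ℕ} (c : ℕ → ℕ) {z C : ℕ} (CutOK : β → Prop)
    (ha : ∀ v, N.a v = A.countP fun i => loc.get i = v)
    (hb : ∀ v, N.b v = B.countP fun i => loc.get i = v) (nE : Es.Nodup) (nB : B.Nodup)
    (hE : ∀ e ∈ Es, N.src e ∈ V ∧ N.dst e ∈ V) (hA : ∀ i ∈ A, loc.get i ∈ V)
    (hB : ∀ i ∈ B, loc.get i ∈ V)
    (hlf : ∀ a b : Arr ℕ, a.get = N.a → b.get = N.b → Sp g (lf (a, b, A.map loc.get)) fun r t =>
      t ≤ C ∧ Sum.elim CutOK (fun f : Arr ℤ => (∀ e ∈ Es, (f.get e).natAbs ≤ c e) ∧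
        N.exc V Es.toFinset f.get ≤ z) r) :
    Sp g (mp lf loc N.src N.dst Es A B) fun r t =>
      Sum.elim CutOK (MPok loc.get z (fun U => N.crs Es.toFinset c U (V \ U)) A B) r ∧
      t ≤ C + 3 * ∑ e ∈ Es.toFinset, c e + 3 * Es.length + 6 * A.length + 3 * B.length + 12 := by
  unfold mp
  refine (sp_cntR loc A).bind ?_
  rintro a _ ⟨e1, rfl⟩
  refine (sp_cntR loc B).bind ?_
  rintro b _ ⟨e2, rfl⟩
  refine (sp_mapP _ _).bind ?_
  rintro _ t ⟨rfl, ht⟩
  refine (hlf a b (funext fun v => by rw [e1, ha]) (funext fun v => by rw [e2, hb])).bind ?_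
  rintro (s | f) u ⟨hu, h⟩
  · exact ⟨h, by omega⟩
  · refine (sp_flowPairs N c ha hb nE nB hE hA hB h.1 h.2).bind fun o w k => ⟨k.1, ?_⟩
    have := k.2
    omega

end Crest.Agent.N325.Tok
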