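import Crest.Agent.N325.Krv.Tok

/-!
# Row 325 (helper27): the pairing of an edge flow (real pairs along the flow, fake pairs for the rest)
-/

set_option autoImplicit false
open Finset Function

namespace Crest.Agent.N325.Tok

/-- bucket the second components by the first ones -/
def bucket : List (ℕ × ℕ) → ℕ → List ℕ
  | [] => fun _ => []
  | p :: r => update (bucket r) p.1 (p.2 :: bucket r p.1)

theorem bucket_eq (L : List (ℕ × ℕ)) (v : ℕ) :
    bucket L v = (L.filter fun p => p.1 = v).map Prod.snd := by
  induction L with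
  | nil => rfl
  | cons p r ih =>
    by_cases e : v = p.1
    · subst e; simp [bucket, ih]
    · simp [bucket, update_of_ne e, ih, Ne.symm e]

theorem mem_bucket {L : List (ℕ × ℕ)} {v w : ℕ} : w ∈ bucket L v ↔ (v, w) ∈ L := by
  simp only [bucket_eq, List.mem_map, List.mem_filter, decide_eq_true_eq]
  exact ⟨fun ⟨p, ⟨h, a⟩, b⟩ => by rw [← a, ← b]; exact h, fun h => ⟨_, ⟨h, rfl⟩, rfl⟩⟩

theorem length_bucket (L : List (ℕ × ℕ)) (v : ℕ) :
    (bucket L v).length = L.countP fun p => p.1 = v := by
  rw [bucket_eq, List.length_map, List.countP_eq_length_filter]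

/-- additive statistics of the buckets -/
theorem sum_bucket {M : Type*} [AddCommMonoid M] {n : ℕ} {L : List (ℕ × ℕ)} (h : ∀ p ∈ L, p.1 < n)
    (g : ℕ → List ℕ → M) (c : ℕ × ℕ → M) (h0 : ∀ v, g v [] = 0)
    (h1 : ∀ v w l, g v (w :: l) = c (v, w) + g v l) :
    ∑ v ∈ range n, g v (bucket L v) = (L.map c).sum := by
  induction L with
  | nil => simp [bucket, h0]
  | cons p r ih =>
    have hm := mem_range.2 (h p List.mem_cons_self)
    rw [List.map_cons, List.sum_cons, ← ih fun q hq => h q (List.mem_cons_of_mem _ hq), bucket,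
      ← add_sum_erase _ _ hm, ← add_sum_erase _ (fun v => g v (bucket r v)) hm, update_self, h1,
      sum_congr rfl fun u hu => by rw [update_of_ne (ne_of_mem_erase hu)], add_assoc]

theorem sum_ite_countP {α : Type*} (L : List α) (P : α → Bool) :
    (L.map fun p => if P p then 1 else 0).sum = L.countP P := by
  induction L with
  | nil => rfl
  | cons p r ih => rw [List.map_cons, List.sum_cons, ih, List.countP_cons, add_comm]

variable {n : ℕ} {L : List (ℕ × ℕ)}

theorem sum_length_bucket (h : ∀ p ∈ L, p.1 < n) :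
    ∑ v ∈ range n, (bucket L v).length = L.length := by
  rw [sum_bucket h (fun _ l => l.length) (fun _ => 1) (fun _ => rfl) fun _ _ _ => by simp [add_comm]]
  simp

theorem sum_count_bucket (h : ∀ p ∈ L, p.1 < n) (v : ℕ) :
    ∑ u ∈ range n, (bucket L u).count v = L.countP fun p => p.2 = v := by
  rw [sum_bucket h (fun _ l => l.count v) (fun p => if decide (p.2 = v) then 1 else 0) (fun _ => rfl)
    fun _ _ _ => by simp [List.count_cons, add_comm], sum_ite_countP]

theorem sum_coe_bucket (h : ∀ p ∈ L, p.1 < n) :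
    ∑ u ∈ range n, (bucket L u : Multiset ℕ) = (L.map Prod.snd : List ℕ) := by
  rw [sum_bucket h (fun _ l => (l : Multiset ℕ)) (fun p => {p.2}) (fun _ => rfl) fun _ _ _ => rfl]
  clear h
  induction L with
  | nil => rfl
  | cons p r ih => rw [List.map_cons, List.sum_cons, ih]; rfl

theorem cross_bucket (h : ∀ p ∈ L, p.1 < n) (T : ℕ → Bool) :
    cross n (bucket L) T = L.countP fun p => T p.1 && !T p.2 := by
  unfold cross
  rw [sum_bucket h (fun v l => if T v then l.countP (fun w => !T w) else 0)
    (fun p => if (T p.1 && !T p.2) then 1 else 0) (fun _ => by simp)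
    fun v w l => by cases T v <;> simp [List.countP_cons, add_comm], sum_ite_countP]

/-- the set of a list as an array -/
def mark : List ℕ → ℕ → Bool
  | [] => fun _ => false
  | i :: r => update (mark r) i true

theorem mark_eq (l : List ℕ) (j : ℕ) : mark l j = decide (j ∈ l) := by
  induction l with
  | nil => rfl
  | cons i r ih =>
    by_cases e : j = i
    · subst e; simp [mark]
    · simp [mark, ih, e]

/-- the elements of `B` not in `l` -/
def rest (B l : List ℕ) : List ℕ := B.filter fun j => !mark l j

theorem perm_rest {B l : List ℕ} (hB : B.Nodup) (h : (l : Multiset ℕ) ≤ B) :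
    (l ++ rest B l).Perm B := by
  have hs : l.Subperm B := Multiset.coe_le.1 h
  have hl : l.Nodup := by
    obtain ⟨l', p, s⟩ := hs
    exact p.nodup_iff.1 (hB.sublist s)
  refine (List.perm_ext_iff_of_nodup ?_ hB).2 fun j => ?_
  · refine List.Nodup.append hl (hB.filter _) fun j h1 h2 => ?_
    simp [rest, mark_eq, h1] at h2
  · simp only [rest, mark_eq, List.mem_append, List.mem_filter, Bool.not_eq_true',
      decide_eq_false_iff_not]
    exact ⟨fun h => h.elim (fun h => hs.subset h) And.left, fun h => by tauto⟩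

/-- the final state of the walk along the unit arcs `L` -/
def fin (loc : ℕ → ℕ) (L : List (ℕ × ℕ)) (A B : List ℕ) : St :=
  step^[A.length + L.length] (init loc (bucket L) (bucket (B.map fun j => (loc j, j))) A)

/-- the real pairs -/
def real (loc : ℕ → ℕ) (L : List (ℕ × ℕ)) (A B : List ℕ) : List (ℕ × ℕ) := (fin loc L A B).prs

/-- the fake pairs -/
def fake (loc : ℕ → ℕ) (L : List (ℕ × ℕ)) (A B : List ℕ) : List (ℕ × ℕ) :=
  (fin loc L A B).unm.zip (rest B ((fin loc L A B).prs.map Prod.snd))

theorem countP_ne {α : Type*} (l : List α) (P Q : α → Bool) :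
    l.countP (fun p => P p != Q p) =
      l.countP (fun p => P p && !Q p) + l.countP (fun p => !P p && !!Q p) := by
  induction l with
  | nil => rfl
  | cons p r ih =>
    simp only [List.countP_cons, ih]
    cases P p <;> cases Q p <;> simp <;> omega

/-- what the pairing returns: `R` real and `F` fake pairs -/
structure Pairing (n : ℕ) (loc : ℕ → ℕ) (L : List (ℕ × ℕ)) (A B : List ℕ)
    (R F : List (ℕ × ℕ)) : Prop where
  fst : ((R ++ F).map Prod.fst).Perm A
  snd : ((R ++ F).map Prod.snd).Perm B
  crs : ∀ T : ℕ → Bool,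
    R.countP (fun p => T (loc p.1) != T (loc p.2)) ≤ L.countP fun p => T p.1 != T p.2
  fk : F.length ≤ ∑ v ∈ range n, ((A.countP (fun i => loc i = v) : ℕ) +
    ((L.countP (fun p => p.2 = v) : ℕ) - (L.countP (fun p => p.1 = v) : ℕ)) -
      (B.countP (fun j => loc j = v) : ℕ) : ℤ).toNat

/-- **the pairing along unit arcs** -/
theorem pairing {loc : ℕ → ℕ} {A B : List ℕ} (hA : ∀ i ∈ A, loc i < n) (hB : ∀ j ∈ B, loc j < n)
    (hL : ∀ p ∈ L, p.1 < n ∧ p.2 < n) (nB : B.Nodup) (hl : A.length = B.length) :
    Pairing n loc L A B (real loc L A B) (fake loc L A B) := by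
  have hL1 : ∀ p ∈ L, p.1 < n := fun p hp => (hL p hp).1
  have hB1 : ∀ p ∈ B.map fun j => (loc j, j), p.1 < n := by simpa using hB
  have h := (res_walk (n := n) (out := bucket L) (snk := bucket (B.map fun j => (loc j, j)))
    (k := A.length + L.length) hA (fun v w hw => (hL _ (mem_bucket.1 hw)).2)
    (fun v j hj => by have := mem_bucket.1 hj; simp at this; exact this.2) (by rw [sum_length_bucket hL1])).2
  change Res _ _ _ _ _ (fin loc L A B) at h
  unfold real fake
  generalize fin loc L A B = t at h
  have h1 : (t.prs.map Prod.fst ++ t.unm).Perm A := Multiset.coe_eq_coe.1 h.src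
  have h2 : (t.prs.map Prod.snd ++ rest B (t.prs.map Prod.snd)).Perm B := by
    refine perm_rest nB ?_
    have := h.tgt
    rw [sum_coe_bucket hB1, List.map_map, show (Prod.snd ∘ fun j => (loc j, j)) = id from rfl,
      List.map_id] at this
    exact this ▸ le_self_add
  have hxy : t.unm.length = (rest B (t.prs.map Prod.snd)).length := by
    have a := h1.length_eq
    have b := h2.length_eq
    simp only [List.length_append, List.length_map] at a b
    omega
  refine ⟨?_, ?_, fun T => ?_, ?_⟩
  · rw [List.map_append, List.map_fst_zip hxy.le]; exact h1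
  · rw [List.map_append, List.map_snd_zip hxy.ge]; exact h2
  · rw [countP_ne, countP_ne]
    exact add_le_add ((h.crs T).trans_eq (cross_bucket hL1 T))
      ((h.crs fun v => !T v).trans_eq (cross_bucket hL1 _))
  · rw [List.length_zip, ← hxy, min_self]
    refine h.unm.trans_eq (sum_congr rfl fun v _ => congrArg Int.toNat ?_)
    rw [sum_count_bucket hL1, length_bucket, length_bucket, List.countP_map]
    simp only [Function.comp_def]
    ring

/-! ### unit arcs of an integer edge flow -/

/-- the unit arcs of the flow `z` on the edge `(u, v)` -/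
def arc1 (e : ℕ × ℕ × ℤ) : List (ℕ × ℕ) :=
  List.replicate e.2.2.toNat (e.1, e.2.1) ++ List.replicate (-e.2.2).toNat (e.2.1, e.1)

/-- the unit arcs of a flow, given as a list of `(tail, head, flow)` -/
def arcs (E : List (ℕ × ℕ × ℤ)) : List (ℕ × ℕ) := E.flatMap arc1

variable {E : List (ℕ × ℕ × ℤ)}

theorem arcs_lt (h : ∀ e ∈ E, e.1 < n ∧ e.2.1 < n) : ∀ p ∈ arcs E, p.1 < n ∧ p.2 < n := by
  intro p hp
  obtain ⟨e, he, hp⟩ := List.mem_flatMap.1 hp
  rcases List.mem_append.1 hp with hp | hp <;> rw [List.eq_of_mem_replicate hp]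
  exacts [h e he, (h e he).symm]

theorem length_arc1 (e : ℕ × ℕ × ℤ) : (arc1 e).length = e.2.2.natAbs := by
  simp only [arc1, List.length_append, List.length_replicate]; omega

theorem length_arcs (E : List (ℕ × ℕ × ℤ)) : (arcs E).length = (E.map fun e => e.2.2.natAbs).sum := by
  simp only [arcs, List.length_flatMap, length_arc1]

theorem cross_arcs (E : List (ℕ × ℕ × ℤ)) (T : ℕ → Bool) :
    ((arcs E).countP fun p => T p.1 != T p.2) =
      (E.map fun e => if T e.1 != T e.2.1 then e.2.2.natAbs else 0).sum := by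
  induction E with
  | nil => rfl
  | cons e r ih =>
    rw [List.map_cons, List.sum_cons, ← ih, arcs, List.flatMap_cons, List.countP_append, arc1,
      List.countP_append, List.countP_replicate, List.countP_replicate]
    congr 1
    cases T e.1 <;> cases T e.2.1 <;> simp

/-- inflow minus outflow -/
def dv (E : List (ℕ × ℕ × ℤ)) (v : ℕ) : ℤ :=
  (E.map fun e => (if e.2.1 = v then e.2.2 else 0) - if e.1 = v then e.2.2 else 0).sum

theorem dv_arcs (E : List (ℕ × ℕ × ℤ)) (v : ℕ) :
    (((arcs E).countP (fun p => p.2 = v) : ℕ) - ((arcs E).countP (fun p => p.1 = v) : ℕ) : ℤ) =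
      dv E v := by
  unfold dv
  induction E with
  | nil => rfl
  | cons e r ih =>
    rw [List.map_cons, List.sum_cons, ← ih]
    simp only [arcs, List.flatMap_cons, List.countP_append, arc1, List.countP_replicate,
      decide_eq_true_eq]
    split_ifs <;> push_cast <;> omega

/-- **the pairing of a flow** -/
theorem pairing_flow {loc : ℕ → ℕ} {A B : List ℕ} (hA : ∀ i ∈ A, loc i < n)
    (hB : ∀ j ∈ B, loc j < n) (hE : ∀ e ∈ E, e.1 < n ∧ e.2.1 < n) (nB : B.Nodup)
    (hl : A.length = B.length) :
    ((real loc (arcs E) A B ++ fake loc (arcs E) A B).map Prod.fst).Perm A ∧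
    ((real loc (arcs E) A B ++ fake loc (arcs E) A B).map Prod.snd).Perm B ∧
    (∀ T : ℕ → Bool, (real loc (arcs E) A B).countP (fun p => T (loc p.1) != T (loc p.2)) ≤
      (E.map fun e => if T e.1 != T e.2.1 then e.2.2.natAbs else 0).sum) ∧
    (fake loc (arcs E) A B).length ≤ ∑ v ∈ range n, ((A.countP (fun i => loc i = v) : ℕ) + dv E v -
      (B.countP (fun j => loc j = v) : ℕ) : ℤ).toNat := by
  have h := pairing hA hB (arcs_lt hE) nB hl
  refine ⟨h.fst, h.snd, fun T => (h.crs T).trans_eq (cross_arcs E T), ?_⟩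
  simpa only [dv_arcs] using h.fk

end Crest.Agent.N325.Tok
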