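import Crest.Agent.N325.Krv.Pair
import Crest.Agent.N325.M0.Mon

/-!
# Row 325 (helper27): the pairing as a program, and the matching player
-/

set_option autoImplicit false
open Finset Function

namespace Crest.Agent.N325.Tok

variable {g : Gl}

/-- a fold of a straight-line function -/
theorem sp_foldP {α σ : Type} (f : α → σ → σ) (l : List α) (s : σ) :
    Sp g (foldL (fun a s => pure (f a s)) l s) fun s' u =>
      s' = l.reverse.foldr f s ∧ u = l.length + 1 := by
  induction l generalizing s with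
  | nil => exact ⟨Nat.zero_le _, rfl, rfl⟩
  | cons a l ih =>
    refine ⟨Nat.zero_le _, (ih (f a s)).mono fun s' u h => ⟨?_, ?_⟩⟩
    · rw [h.1, List.reverse_cons, List.foldr_append]; rfl
    · rw [h.2, List.length_cons]; omega

/-- `k` copies of `x` in front of `L` -/
def repR {α : Type} (x : α) (k : ℕ) (L : List α) : R (List α) :=
  forN (fun _ L => pure (x :: L)) k 0 L

theorem sp_repR {α : Type} (x : α) (k : ℕ) (L : List α) :
    Sp g (repR x k L) fun L' u => L' = List.replicate k x ++ L ∧ u = k + 1 := by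
  unfold repR
  generalize 0 = i
  induction k generalizing L i with
  | zero => exact ⟨Nat.zero_le _, rfl, rfl⟩
  | succ k ih =>
    refine ⟨Nat.zero_le _, (ih (x :: L) (i + 1)).mono fun s' u h => ⟨?_, ?_⟩⟩
    · rw [h.1, List.replicate_succ']; simp
    · rw [h.2]; omega

/-- the state of the walk on arrays -/
abbrev TS := Arr (List ℕ) × Arr (List ℕ) × List (ℕ × ℕ) × List (ℕ × ℕ) × List ℕ

/-- the state as functions -/
def TS.st (s : TS) : St := ⟨s.1.get, s.2.1.get, s.2.2.1, s.2.2.2.1, s.2.2.2.2⟩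

/-- one move on arrays -/
def stepA (s : TS) : TS :=
  List.casesOn s.2.2.1 s fun p r =>
    List.casesOn (s.2.1.get p.2)
      (List.casesOn (s.1.get p.2) (s.1, s.2.1, r, s.2.2.2.1, p.1 :: s.2.2.2.2)
        fun w q => (s.1.set p.2 q, s.2.1, (p.1, w) :: r, s.2.2.2.1, s.2.2.2.2))
      fun j q => (s.1, s.2.1.set p.2 q, r, (p.1, j) :: s.2.2.2.1, s.2.2.2.2)

theorem st_stepA (s : TS) : (stepA s).st = step s.st := by
  obtain ⟨o, k, td, pr, un⟩ := s
  rcases td with _ | ⟨⟨i, v⟩, r⟩
  · rfl
  · simp only [stepA, step, TS.st]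
    rcases k.get v with _ | ⟨j, q⟩
    · rcases o.get v with _ | ⟨w, q⟩
      · rfl
      · simp only [Arr.set_get]
    · simp only [Arr.set_get]

theorem st_foldr {α : Type} (l : List α) (s : TS) :
    (l.foldr (fun _ s => stepA s) s).st = step^[l.length] s.st := by
  induction l with
  | nil => rfl
  | cons a l ih => rw [List.foldr_cons, st_stepA, ih, List.length_cons, iterate_succ_apply']

theorem get_foldr_bucket {α : Type} (k x : α → ℕ) (l : List α) :
    (l.foldr (fun p (a : Arr (List ℕ)) => a.set (k p) (x p :: a.get (k p))) (Arr.cst [])).get =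
      bucket (l.map fun p => (k p, x p)) := by
  induction l with
  | nil => rfl
  | cons a l ih => rw [List.foldr_cons, Arr.set_get, ih]; rfl

theorem get_foldr_mark {α : Type} (k : α → ℕ) (l : List α) :
    (l.foldr (fun p (a : Arr Bool) => a.set (k p) true) (Arr.cst false)).get = mark (l.map k) := by
  induction l with
  | nil => rfl
  | cons a l ih => rw [List.foldr_cons, Arr.set_get, ih]; rfl

theorem foldr_filter (m : ℕ → Bool) (l : List ℕ) :
    l.foldr (fun j r => if m j then r else j :: r) [] = l.filter fun j => !m j := by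
  induction l with
  | nil => rfl
  | cons a l ih => rw [List.foldr_cons, ih, List.filter_cons]; cases m a <;> rfl

/-- **the pairing program**: real pairs, left over sources, left over sinks -/
def pairR (loc : Arr ℕ) (L : List (ℕ × ℕ)) (A B : List ℕ) :
    R (List (ℕ × ℕ) × List ℕ × List ℕ) := do
  let out ← foldL (fun p (a : Arr (List ℕ)) => pure (a.set p.1 (p.2 :: a.get p.1))) L (Arr.cst [])
  let snk ← foldL (fun j (a : Arr (List ℕ)) => pure (a.set (loc.get j) (j :: a.get (loc.get j))))
    B (Arr.cst [])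
  let td ← foldL (fun i l => pure ((i, loc.get i) :: l)) A []
  let s ← foldL (fun _ s => pure (stepA s)) L (out, snk, td, [], [])
  let s' ← foldL (fun _ s => pure (stepA s)) A s
  let mk ← foldL (fun p (a : Arr Bool) => pure (a.set p.2 true)) s'.2.2.2.1 (Arr.cst false)
  let y ← foldL (fun j l => pure (if mk.get j then l else j :: l)) B []
  pure (s'.2.2.2.1, s'.2.2.2.2, y)

/-- the answer of the pairing -/
structure PairOK (n : ℕ) (loc : ℕ → ℕ) (L : List (ℕ × ℕ)) (A B : List ℕ)
    (o : List (ℕ × ℕ) × List ℕ × List ℕ) : Prop where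
  fst : (o.1.map Prod.fst ++ o.2.1).Perm A
  snd : (o.1.map Prod.snd ++ o.2.2).Perm B
  crs : ∀ T : ℕ → Bool,
    o.1.countP (fun p => T (loc p.1) != T (loc p.2)) ≤ L.countP fun p => T p.1 != T p.2
  fk : o.2.1.length ≤ ∑ v ∈ range n, ((A.countP (fun i => loc i = v) : ℕ) +
    ((L.countP (fun p => p.2 = v) : ℕ) - (L.countP (fun p => p.1 = v) : ℕ)) -
      (B.countP (fun j => loc j = v) : ℕ) : ℤ).toNat

theorem PairOK.perm {n : ℕ} {loc : ℕ → ℕ} {L L' : List (ℕ × ℕ)} {A B A' B' : List ℕ}
    {o : List (ℕ × ℕ) × List ℕ × List ℕ} (h : PairOK n loc L A B o) (hL : L.Perm L')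
    (hA : A.Perm A') (hB : B.Perm B') : PairOK n loc L' A' B' o :=
  ⟨h.fst.trans hA, h.snd.trans hB, fun T => (h.crs T).trans_eq (hL.countP_eq _), by
    simpa only [← hL.countP_eq, ← hA.countP_eq, ← hB.countP_eq] using h.fk⟩

theorem pairOK {n : ℕ} {loc : ℕ → ℕ} {L : List (ℕ × ℕ)} {A B : List ℕ} (hA : ∀ i ∈ A, loc i < n)
    (hB : ∀ j ∈ B, loc j < n) (hL : ∀ p ∈ L, p.1 < n ∧ p.2 < n) (nB : B.Nodup) {l : List ℕ}
    (hl : l.Perm ((fin loc L A B).prs.map Prod.snd)) :
    PairOK n loc L A B ((fin loc L A B).prs, (fin loc L A B).unm, rest B l) := by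
  have hL1 : ∀ p ∈ L, p.1 < n := fun p hp => (hL p hp).1
  have hB1 : ∀ p ∈ B.map fun j => (loc j, j), p.1 < n := by simpa using hB
  have h := (res_walk (n := n) (out := bucket L) (snk := bucket (B.map fun j => (loc j, j)))
    (k := A.length + L.length) hA (fun v w hw => (hL _ (mem_bucket.1 hw)).2)
    (fun v j hj => by have := mem_bucket.1 hj; simp at this; exact this.2)
    (by rw [sum_length_bucket hL1])).2
  change Res _ _ _ _ _ (fin loc L A B) at h
  generalize fin loc L A B = t at h hl
  refine ⟨Multiset.coe_eq_coe.1 h.src, (hl.symm.append_right _).trans (perm_rest nB ?_),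
    fun T => ?_, ?_⟩
  · have := h.tgt
    rw [sum_coe_bucket hB1, List.map_map, show (Prod.snd ∘ fun j => (loc j, j)) = id from rfl,
      List.map_id] at this
    rw [Multiset.coe_eq_coe.2 hl]
    exact this ▸ le_self_add
  · rw [countP_ne, countP_ne]
    exact add_le_add ((h.crs T).trans_eq (cross_bucket hL1 T))
      ((h.crs fun v => !T v).trans_eq (cross_bucket hL1 _))
  · refine h.unm.trans_eq (sum_congr rfl fun v _ => congrArg Int.toNat ?_)
    rw [sum_count_bucket hL1, length_bucket, length_bucket, List.countP_map]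
    simp only [Function.comp_def]
    ring

theorem sp_pairR {n : ℕ} {loc : Arr ℕ} {L : List (ℕ × ℕ)} {A B : List ℕ}
    (hA : ∀ i ∈ A, loc.get i < n) (hB : ∀ j ∈ B, loc.get j < n) (hL : ∀ p ∈ L, p.1 < n ∧ p.2 < n)
    (nB : B.Nodup) : Sp g (pairR loc L A B) fun o t =>
      PairOK n loc.get L A B o ∧ t ≤ 2 * L.length + 3 * A.length + 2 * B.length + 7 := by
  unfold pairR
  refine (sp_foldP _ _ _).bind ?_
  rintro out _ ⟨e1, rfl⟩
  refine (sp_foldP _ _ _).bind ?_
  rintro snk _ ⟨e2, rfl⟩
  refine (sp_foldP _ _ _).bind ?_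
  rintro td _ ⟨e3, rfl⟩
  refine (sp_foldP _ _ _).bind ?_
  rintro s _ ⟨e4, rfl⟩
  refine (sp_foldP _ _ _).bind ?_
  rintro s' _ ⟨e5, rfl⟩
  refine (sp_foldP _ _ _).bind ?_
  rintro mk _ ⟨e6, rfl⟩
  refine (sp_foldP _ _ _).bind ?_
  rintro y _ ⟨e7, rfl⟩
  have e : s'.st = fin loc.get L.reverse A.reverse B.reverse := by
    rw [e5, st_foldr, e4, st_foldr, ← iterate_add_apply, fin]
    congr 1
    simp only [TS.st, init, e1, e2, e3, get_foldr_bucket, List.map_id']
    congr 1
    induction A.reverse with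
    | nil => rfl
    | cons a l ih => rw [List.foldr_cons, ih]; rfl
  have h := (pairOK (n := n) (loc := loc.get) (L := L.reverse) (A := A.reverse) (B := B.reverse)
    (by simpa using hA) (by simpa using hB) (fun p hp => hL p (List.mem_reverse.1 hp))
    (List.nodup_reverse.2 nB) (l := s'.2.2.2.1.reverse.map Prod.snd)
    (by rw [← e]; exact (List.reverse_perm _).map _)).perm
    (List.reverse_perm _) (List.reverse_perm _) (List.reverse_perm _)
  rw [← e] at h
  have hy : y = rest B.reverse (s'.2.2.2.1.reverse.map Prod.snd) := by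
    rw [e7, foldr_filter, e6, get_foldr_mark, rest]
  have hlen := h.fst.length_eq
  simp only [List.length_append, List.length_map, TS.st] at hlen
  exact ⟨hy ▸ h, by omega⟩

/-! ### the matching player -/

/-- the unit arcs of the flow `f` on the edges `Es` -/
def arcsR (src dst : ℕ → ℕ) (f : Arr ℤ) (Es : List ℕ) : R (List (ℕ × ℕ)) :=
  foldL (fun e L => repR (dst e, src e) (-f.get e).toNat L >>=
    repR (src e, dst e) (f.get e).toNat) Es []

/-- the flow as a list -/
def flowL (src dst : ℕ → ℕ) (f : ℕ → ℤ) (Es : List ℕ) : List (ℕ × ℕ × ℤ) :=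
  Es.map fun e => (src e, dst e, f e)

theorem sp_arcsR (src dst : ℕ → ℕ) (f : Arr ℤ) (Es : List ℕ) :
    Sp g (arcsR src dst f Es) fun L t => L.Perm (arcs (flowL src dst f.get Es)) ∧
      t ≤ (Es.map fun e => (f.get e).natAbs).sum + 3 * Es.length + 1 := by
  refine (sp_foldL' (fun l L => (arcs (flowL src dst f.get l) ++ L).Perm
      (arcs (flowL src dst f.get Es))) (fun e => (f.get e).natAbs + 2)
    (fun e l L h => ?_) (by simp)).mono fun L t h => ⟨h.1, h.2.trans_eq ?_⟩
  · refine (sp_repR _ _ _).bind ?_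
    rintro _ _ ⟨rfl, rfl⟩
    refine (sp_repR _ _ _).mono ?_
    rintro _ _ ⟨rfl, rfl⟩
    refine ⟨List.Perm.trans ?_ h, by omega⟩
    simp only [arcs, flowL, List.map_cons, List.flatMap_cons, arc1, ← List.append_assoc]
    refine List.Perm.append_right _ ?_
    rw [List.append_assoc]
    exact List.perm_append_comm
  · simp only [add_assoc, List.sum_map_add]; simp; omega

/-- the number of units at every vertex -/
def cntR (loc : Arr ℕ) (A : List ℕ) : R (Arr ℕ) :=
  foldL (fun i (a : Arr ℕ) => pure (a.set (loc.get i) (a.get (loc.get i) + 1))) A (Arr.cst 0)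

theorem sp_cntR (loc : Arr ℕ) (A : List ℕ) : Sp g (cntR loc A) fun a t =>
    (∀ v, a.get v = A.countP fun i => loc.get i = v) ∧ t = A.length + 1 := by
  refine (sp_foldP _ _ _).mono ?_
  rintro _ _ ⟨rfl, rfl⟩
  refine ⟨fun v => ?_, rfl⟩
  rw [← List.countP_reverse]
  induction A.reverse with
  | nil => rfl
  | cons a l ih =>
    rw [List.foldr_cons, Arr.get_set, List.countP_cons]
    by_cases e : v = loc.get a
    · subst e; simp [ih]
    · simp [e, Ne.symm e, ih]

end Crest.Agent.N325.Tok
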