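import Crest.Agent.N325.Krv.Walk
import Crest.Agent.N325.Krv.Hoeff

/-! KRV cut-matching game: the expected drop of the potential in one round. -/

set_option autoImplicit false

namespace Crest.Agent.N325.Krv

open Finset

variable {ι Ω : Type*} [Fintype ι] [DecidableEq ι] [Fintype Ω] {σ : Ω → ℝ}

theorem walk_sub_walk (l : List (ι → ι)) (s : ι → ℝ) (i k : ι) :
    walk l s i - walk l s k = ∑ j, (cen l i j - cen l k j) * s j := by
  rw [walk_eq_sum, walk_eq_sum, ← Finset.sum_sub_distrib]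
  exact Finset.sum_congr rfl fun j _ => by simp only [cen]; ring

theorem walk_sub_mean (l : List (ι → ι)) (s : ι → ℝ) (i : ι) :
    walk l s i - (∑ j, s j) / Fintype.card ι = ∑ j, cen l i j * s j := by
  rw [walk_eq_sum, Finset.sum_div, ← Finset.sum_sub_distrib]
  exact Finset.sum_congr rfl fun j _ => by simp only [cen]; ring

/-- The mean minimises the sum of squared deviations. -/
theorem sum_sq_mean_le (w : ι → ℝ) (η : ℝ) :
    ∑ i, (w i - (∑ j, w j) / Fintype.card ι) ^ 2 ≤ ∑ i, (w i - η) ^ 2 := by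
  rcases Nat.eq_zero_or_pos (Fintype.card ι) with h0 | hpos
  · have : IsEmpty ι := Fintype.card_eq_zero_iff.1 h0
    simp
  have hn : (0 : ℝ) < Fintype.card ι := by exact_mod_cast hpos
  set m := (∑ j, w j) / Fintype.card ι with hm
  have h0 : ∑ i, (w i - m) = 0 := by
    rw [Finset.sum_sub_distrib, Finset.sum_const, Finset.card_univ, nsmul_eq_mul, hm]
    field_simp; ring
  have e : ∀ i, (w i - η) ^ 2 = (w i - m) ^ 2 + 2 * (m - η) * (w i - m) + (m - η) ^ 2 := by
    intro i; ring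
  simp only [e, Finset.sum_add_distrib, ← Finset.mul_sum, h0]
  have : 0 ≤ ∑ _i : ι, (m - η) ^ 2 := Finset.sum_nonneg fun _ _ => sq_nonneg _
  linarith

/-- A matching across a threshold has large squared increments. -/
theorem sum_sq_sub_ge {π : ι → ι} (hπ : Function.Involutive π) (w : ι → ℝ) {η ε : ℝ}
    (h : ∀ i, (w i - η) * (w (π i) - η) ≤ ε) :
    2 * ∑ i, (w i - (∑ j, w j) / Fintype.card ι) ^ 2 - 2 * Fintype.card ι * ε ≤
      ∑ i, (w i - w (π i)) ^ 2 := by
  have h1 := sum_sq_mean_le w η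
  have h2 : ∑ i, (w (π i) - η) ^ 2 = ∑ i, (w i - η) ^ 2 :=
    sum_comp_invol hπ fun i => (w i - η) ^ 2
  have h3 : ∑ i, ((w i - η) ^ 2 + (w (π i) - η) ^ 2 - 2 * ε) ≤ ∑ i, (w i - w (π i)) ^ 2 :=
    Finset.sum_le_sum fun i _ => by nlinarith [h i]
  simp only [Finset.sum_sub_distrib, Finset.sum_add_distrib, Finset.sum_const, Finset.card_univ,
    nsmul_eq_mul] at h3
  linarith

/-- Pointwise bound of the potential after one round. -/
theorem psi_cons_le_of_sep (hσ : IsSign σ) {l : List (ι → ι)} (hl : Invol l) {Λ ε η : ℝ}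
    (hΛ : 0 < Λ) (r : ι → Ω) {π : ι → ι} (hπ : Function.Involutive π)
    (h : ∀ i, (walk l (fun j => σ (r j)) i - η) * (walk l (fun j => σ (r j)) (π i) - η) ≤ ε) :
    psi (π :: l) ≤ psi l - (2 * ∑ i, (∑ j, cen l i j * σ (r j)) ^ 2 - 2 * Fintype.card ι * ε -
      Fintype.card ι * ∑ i, ∑ k, dist2 l i k *
        (if Λ * dist2 l i k < (∑ j, (cen l i j - cen l k j) * σ (r j)) ^ 2 then 1 else 0)) /
        (4 * Λ) := by
  set s : ι → ℝ := fun j => σ (r j) with hs
  have h1 := sum_sq_sub_ge hπ (walk l s) h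
  rw [sum_walk hl] at h1
  simp only [walk_sub_mean, walk_sub_walk] at h1
  set ind : ι → ι → ℝ := fun i k =>
    if Λ * dist2 l i k < (∑ j, (cen l i j - cen l k j) * σ (r j)) ^ 2 then 1 else 0 with hind
  have ind0 : ∀ i k, 0 ≤ dist2 l i k * ind i k := fun i k =>
    mul_nonneg (dist2_nonneg _ _ _) (by simp only [hind]; split_ifs <;> norm_num)
  have h2 : ∀ i, (∑ j, (cen l i j - cen l (π i) j) * s j) ^ 2 ≤
      Λ * dist2 l i (π i) + Fintype.card ι * ∑ k, dist2 l i k * ind i k := by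
    intro i
    have a1 : dist2 l i (π i) * ind i (π i) ≤ ∑ k, dist2 l i k * ind i k :=
      Finset.single_le_sum (f := fun k => dist2 l i k * ind i k) (fun k _ => ind0 i k)
        (Finset.mem_univ _)
    have a2 : (Fintype.card ι : ℝ) * (dist2 l i (π i) * ind i (π i)) ≤
        Fintype.card ι * ∑ k, dist2 l i k * ind i k :=
      mul_le_mul_of_nonneg_left a1 (by positivity)
    have a3 := sq_signs_le hσ (fun j => cen l i j - cen l (π i) j) r
    have a4 : 0 ≤ Λ * dist2 l i (π i) := mul_nonneg hΛ.le (dist2_nonneg _ _ _)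
    by_cases hv : Λ * dist2 l i (π i) < (∑ j, (cen l i j - cen l (π i) j) * σ (r j)) ^ 2
    · have : ind i (π i) = 1 := by simp only [hind]; rw [if_pos hv]
      rw [this, mul_one] at a2
      have a5 : (∑ j, (cen l i j - cen l (π i) j) * s j) ^ 2 ≤ Fintype.card ι * dist2 l i (π i) := a3
      linarith
    · have a6 : 0 ≤ (Fintype.card ι : ℝ) * (dist2 l i (π i) * ind i (π i)) :=
        mul_nonneg (by positivity) (ind0 _ _)
      have a7 : (∑ j, (cen l i j - cen l (π i) j) * s j) ^ 2 ≤ Λ * dist2 l i (π i) := not_lt.1 hv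
      linarith
  have h3 := Finset.sum_le_sum fun i (_ : i ∈ (Finset.univ : Finset ι)) => h2 i
  rw [Finset.sum_add_distrib, ← Finset.mul_sum, ← Finset.mul_sum] at h3
  rw [psi_cons hπ]
  have h4 : (2 * ∑ i, (∑ j, cen l i j * s j) ^ 2 - 2 * Fintype.card ι * ε -
      Fintype.card ι * ∑ i, ∑ k, dist2 l i k * ind i k) / (4 * Λ) ≤ (∑ i, dist2 l i (π i)) / 4 := by
    rw [div_le_div_iff₀ (by positivity) (by norm_num)]
    nlinarith
  linarith

/-- (K2) One round of the game against an arbitrary (adaptive) matching player: `val r` is bounded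
by the potential after some admissible answer. -/
theorem round (hσ : IsSign σ) {l : List (ι → ι)} (hl : Invol l) {Λ ε : ℝ} (hΛ : 0 < Λ)
    (hn : 8 * (Fintype.card ι : ℝ) ^ 2 ≤ Real.exp (Λ / 2)) (val : (ι → Ω) → ℝ)
    (h : ∀ r, ∃ (π : ι → ι) (η : ℝ), Function.Involutive π ∧
      (∀ i, (walk l (fun j => σ (r j)) i - η) * (walk l (fun j => σ (r j)) (π i) - η) ≤ ε) ∧
      val r ≤ psi (π :: l)) :
    ∑ r, val r ≤ Fintype.card (ι → Ω) *
      ((1 - 1 / (4 * Λ)) * psi l + Fintype.card ι * ε / (2 * Λ)) := by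
  set n : ℝ := (Fintype.card ι : ℝ) with hn'
  set M : ℝ := (Fintype.card (ι → Ω) : ℝ) with hM
  have M0 : 0 ≤ M := by positivity
  have n0 : 0 ≤ n := by positivity
  set ind : (ι → Ω) → ι → ι → ℝ := fun r i k =>
    if Λ * dist2 l i k < (∑ j, (cen l i j - cen l k j) * σ (r j)) ^ 2 then 1 else 0 with hind
  have h1 : ∀ r, val r ≤ psi l - (2 * ∑ i, (∑ j, cen l i j * σ (r j)) ^ 2 - 2 * n * ε -
      n * ∑ i, ∑ k, dist2 l i k * ind r i k) / (4 * Λ) := by
    intro r
    obtain ⟨π, η, hπ, hs, hv⟩ := h r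
    exact hv.trans (psi_cons_le_of_sep hσ hl hΛ r hπ hs)
  have h2 : ∑ r : ι → Ω, ∑ i, (∑ j, cen l i j * σ (r j)) ^ 2 = M * psi l := by
    rw [Finset.sum_comm, psi, Finset.mul_sum]
    exact Finset.sum_congr rfl fun i _ => sum_sq_signs hσ _
  have h3 : ∑ r : ι → Ω, ∑ i, ∑ k, dist2 l i k * ind r i k ≤
      M * (2 * Real.exp (-(Λ / 2))) * (4 * n * psi l) := by
    rw [Finset.sum_comm]
    refine le_trans ?_ (mul_le_mul_of_nonneg_left (sum_dist2_le l) (by positivity))
    rw [Finset.mul_sum]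
    refine Finset.sum_le_sum fun i _ => ?_
    rw [Finset.sum_comm, Finset.mul_sum]
    refine Finset.sum_le_sum fun k _ => ?_
    rw [← Finset.mul_sum, mul_comm]
    exact mul_le_mul_of_nonneg_right
      (sum_ind_tail hσ (fun j => cen l i j - cen l k j) hΛ.le) (dist2_nonneg _ _ _)
  have h4 : 8 * n ^ 2 * Real.exp (-(Λ / 2)) ≤ 1 := by
    calc _ ≤ Real.exp (Λ / 2) * Real.exp (-(Λ / 2)) :=
          mul_le_mul_of_nonneg_right hn (Real.exp_pos _).le
      _ = 1 := by rw [← Real.exp_add]; simp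
  have hψ := psi_nonneg l
  have h5 : n * ∑ r : ι → Ω, ∑ i, ∑ k, dist2 l i k * ind r i k ≤ M * psi l := by
    calc _ ≤ n * (M * (2 * Real.exp (-(Λ / 2))) * (4 * n * psi l)) :=
          mul_le_mul_of_nonneg_left h3 n0
      _ = (8 * n ^ 2 * Real.exp (-(Λ / 2))) * (M * psi l) := by ring
      _ ≤ 1 * (M * psi l) := mul_le_mul_of_nonneg_right h4 (by positivity)
      _ = _ := one_mul _
  refine (Finset.sum_le_sum fun r _ => h1 r).trans ?_
  have e0 : ∑ r : ι → Ω, (psi l - (2 * ∑ i, (∑ j, cen l i j * σ (r j)) ^ 2 - 2 * n * ε -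
      n * ∑ i, ∑ k, dist2 l i k * ind r i k) / (4 * Λ)) =
      M * psi l - (2 * (M * psi l) - M * (2 * n * ε) -
        n * ∑ r : ι → Ω, ∑ i, ∑ k, dist2 l i k * ind r i k) / (4 * Λ) := by
    rw [Finset.sum_sub_distrib, ← Finset.sum_div, Finset.sum_sub_distrib, Finset.sum_sub_distrib,
      ← h2, Finset.mul_sum, Finset.mul_sum (a := n), h2]
    simp only [Finset.sum_const, Finset.card_univ, nsmul_eq_mul, ← hM]
  rw [e0]
  have e : M * ((1 - 1 / (4 * Λ)) * psi l + n * ε / (2 * Λ)) =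
      M * psi l - (M * psi l - M * (2 * n * ε)) / (4 * Λ) := by
    field_simp; ring
  rw [e]
  have : (M * psi l - M * (2 * n * ε)) / (4 * Λ) ≤ (2 * (M * psi l) - M * (2 * n * ε) -
      n * ∑ r : ι → Ω, ∑ i, ∑ k, dist2 l i k * ind r i k) / (4 * Λ) :=
    div_le_div_of_nonneg_right (by linarith) (by positivity)
  linarith

omit [DecidableEq ι] in
/-- An admissible answer always exists (sort and reverse). -/
theorem exists_sep (w : ι → ℝ) : ∃ (π : ι → ι) (η : ℝ), Function.Involutive π ∧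
    ∀ i, (w i - η) * (w (π i) - η) ≤ 0 := by
  rcases Nat.eq_zero_or_pos (Fintype.card ι) with h0 | hpos
  · have : IsEmpty ι := Fintype.card_eq_zero_iff.1 h0
    exact ⟨id, 0, fun _ => rfl, fun i => isEmptyElim i⟩
  set e0 := (Fintype.equivFin ι).symm
  set e := (Tuple.sort (w ∘ e0)).trans e0 with he
  have hm : Monotone fun k => w (e k) := Tuple.monotone_sort (w ∘ e0)
  set m : Fin (Fintype.card ι) := ⟨Fintype.card ι / 2, by omega⟩ with hmm
  refine ⟨fun i => e (e.symm i).rev, w (e m), fun i => by simp, fun i => ?_⟩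
  obtain ⟨k, rfl⟩ := e.surjective i
  simp only [Equiv.symm_apply_apply]
  have hk := k.isLt
  rcases lt_or_ge k m with h | h
  · have h1 : w (e k) ≤ w (e m) := hm h.le
    have h2 : w (e m) ≤ w (e k.rev) := hm (by
      rw [Fin.le_def, Fin.val_rev]; rw [Fin.lt_def] at h; simp only [hmm] at h ⊢; omega)
    nlinarith
  · have h1 : w (e m) ≤ w (e k) := hm h
    have h2 : w (e k.rev) ≤ w (e m) := hm (by
      rw [Fin.le_def, Fin.val_rev]; rw [Fin.le_def] at h; simp only [hmm] at h ⊢; omega)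
    nlinarith

/-- (K2 with early stop) the same bound when the game may stop (value `≤ 0`) on some draws. -/
theorem round_stop (hσ : IsSign σ) {l : List (ι → ι)} (hl : Invol l) {Λ ε : ℝ} (hΛ : 0 < Λ)
    (hε : 0 ≤ ε) (hn : 8 * (Fintype.card ι : ℝ) ^ 2 ≤ Real.exp (Λ / 2)) (val : (ι → Ω) → ℝ)
    (h : ∀ r, val r ≤ 0 ∨ ∃ (π : ι → ι) (η : ℝ), Function.Involutive π ∧
      (∀ i, (walk l (fun j => σ (r j)) i - η) * (walk l (fun j => σ (r j)) (π i) - η) ≤ ε) ∧
      val r ≤ psi (π :: l)) :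
    ∑ r, val r ≤ Fintype.card (ι → Ω) *
      ((1 - 1 / (4 * Λ)) * psi l + Fintype.card ι * ε / (2 * Λ)) := by
  refine round hσ hl hΛ hn val fun r => ?_
  rcases h r with h0 | h1
  · obtain ⟨π, η, hπ, hs⟩ := exists_sep (walk l fun j => σ (r j))
    exact ⟨π, η, hπ, fun i => (hs i).trans hε, h0.trans (psi_nonneg _)⟩
  · exact h1

end Crest.Agent.N325.Krv
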