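import Crest.Agent.N325.Krv.Fix
import Crest.Agent.N325.M3.KrvCore
import Crest.Agent.N325.M0.Mon

/-! KRV cut-matching game: `T` adaptive rounds on a tape of bits; bridge to the matrix notation
`KRV.walk / KRV.psi / KRV.proj / KRV.Split`. -/

set_option autoImplicit false

namespace Crest.Agent.N325.Krv

open Finset Crest.Agent.N325.Split

section bridge
variable {ι : Type} [Fintype ι] [DecidableEq ι]

theorem kwalk_eq (l : List (ι → ι)) (i k : ι) : KRV.walk l i k = ent l i k := by
  induction l generalizing i with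
  | nil => simp [KRV.walk, ent, Pi.single_apply]
  | cons π l ih => rw [ent_cons, ← ih, ← ih]; rfl

theorem kproj_eq (l : List (ι → ι)) (r : ι → Bool) :
    KRV.proj (KRV.walk l) r = walk l fun j => sgB (r j) := by
  funext i
  rw [walk_eq_sum]
  simp only [KRV.proj, kwalk_eq]; rfl

theorem kpsi_eq [Nonempty ι] {l : List (ι → ι)} (hl : Invol l) : KRV.psi (KRV.walk l) = psi l := by
  have hn : (0 : ℝ) < Fintype.card ι := by exact_mod_cast Fintype.card_pos
  have h1 : ∑ i, ∑ j, ent l i j = Fintype.card ι := by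
    rw [Finset.sum_comm]; simp [sum_ent_col hl]
  have e : ∀ i j, cen l i j ^ 2 = ent l i j ^ 2 - 2 / (Fintype.card ι : ℝ) * ent l i j +
      1 / (Fintype.card ι : ℝ) ^ 2 := by
    intro i j; simp only [cen]; ring
  simp only [KRV.psi, psi, kwalk_eq, e, Finset.sum_add_distrib, Finset.sum_sub_distrib,
    ← Finset.mul_sum, h1, Finset.sum_const, Finset.card_univ, nsmul_eq_mul]
  field_simp; ring

/-- (K1) in matrix notation. -/
theorem mix {l : List (ι → ι)} (hl : ∀ π ∈ l, Function.Involutive π)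
    (hψ : KRV.psi (KRV.walk l) ≤ 1 / 16) (S : Finset ι) (hS : 2 * S.card ≤ Fintype.card ι) :
    S.card ≤ 2 * (l.map fun π => (S.filter fun i => π i ∉ S).card).sum := by
  rcases S.eq_empty_or_nonempty with rfl | ⟨x, _⟩
  · simp
  · haveI : Nonempty ι := ⟨x⟩
    rw [kpsi_eq hl] at hψ
    exact card_le_cross hl hψ S hS

/-- (K1) on `Fin N`, in the form consumed by `Split.cert_units`. -/
theorem mix_fin {N : ℕ} {l : List (Fin N → Fin N)} (hl : ∀ π ∈ l, Function.Involutive π)
    (hψ : KRV.psi (KRV.walk l) ≤ 1 / 16) (S : Finset (Fin N)) (hS : 2 * S.card ≤ N) :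
    S.card ≤ 2 * (l.map fun π => (S.filter fun i => π i ∉ S).card).sum :=
  mix hl hψ S (by simpa using hS)

end bridge

/-- Sum over all bit strings of length `n`. -/
noncomputable def sumB (n : ℕ) (F : List Bool → ℝ) : ℝ := ∑ v : Fin n → Bool, F (List.ofFn v)

theorem sumB_add (a b : ℕ) (F : List Bool → ℝ) :
    sumB (a + b) F = sumB a fun x => sumB b fun y => F (x ++ y) := by
  unfold sumB
  rw [← (Fin.appendEquiv a b).sum_comp, Fintype.sum_prod_type]
  refine Finset.sum_congr rfl fun x _ => Finset.sum_congr rfl fun y _ => ?_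
  exact congrArg F (List.ofFn_fin_append x y)

/-- `t` rounds, each reading `N` bits. -/
def itB {σ : Type*} (ρ : σ → List Bool → σ) (N : ℕ) : ℕ → σ → List Bool → σ
  | 0, s, _ => s
  | t + 1, s, l => itB ρ N t (ρ s (l.take N)) (l.drop N)

/-- Supermartingale iteration. -/
theorem sumB_itB_le {σ : Type*} (ρ : σ → List Bool → σ) (N : ℕ) (Inv : σ → Prop) (val : σ → ℝ)
    {γ c : ℝ} (hγ : γ ≤ 1) (hI : ∀ s r, Inv s → r.length = N → Inv (ρ s r))
    (hv : ∀ s, Inv s → sumB N (fun r => val (ρ s r)) ≤ 2 ^ N * ((1 - γ) * val s + γ * c))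
    (t : ℕ) (s : σ) (hs : Inv s) :
    sumB (t * N) (fun l => val (itB ρ N t s l)) ≤
      2 ^ (t * N) * ((1 - γ) ^ t * val s + c * (1 - (1 - γ) ^ t)) := by
  induction t generalizing s with
  | zero => simp [sumB, itB]
  | succ t ih =>
    rw [show (t + 1) * N = N + t * N by ring, sumB_add]
    have h1 : (sumB N fun x => sumB (t * N) fun y => val (itB ρ N (t + 1) s (x ++ y))) ≤
        sumB N fun x => 2 ^ (t * N) * ((1 - γ) ^ t * val (ρ s x) + c * (1 - (1 - γ) ^ t)) := by
      refine Finset.sum_le_sum fun v _ => ?_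
      have hl : (List.ofFn v).length = N := List.length_ofFn
      refine le_trans (le_of_eq ?_) (ih (ρ s (List.ofFn v)) (hI s _ hs hl))
      refine Finset.sum_congr rfl fun w _ => ?_
      simp only [itB]
      rw [List.take_left' hl, List.drop_left' hl]
    refine h1.trans ?_
    have h2 := hv s hs
    have h3 : (0 : ℝ) ≤ (1 - γ) ^ t := pow_nonneg (by linarith) _
    unfold sumB at h2 ⊢
    rw [← Finset.mul_sum, Finset.sum_add_distrib, ← Finset.mul_sum]
    simp only [Finset.sum_const, Finset.card_univ, Fintype.card_fun, Fintype.card_bool,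
      Fintype.card_fin, nsmul_eq_mul]
    push_cast
    have h4 := mul_le_mul_of_nonneg_left h2 h3
    calc _ ≤ (2 : ℝ) ^ (t * N) * ((1 - γ) ^ t * (2 ^ N * ((1 - γ) * val s + γ * c)) +
          2 ^ N * (c * (1 - (1 - γ) ^ t))) := by gcongr
      _ = _ := by rw [pow_add]; ring

theorem two_pow_le_exp (k : ℕ) : (2 : ℝ) ^ k ≤ Real.exp k := by
  rw [← Real.exp_one_pow]
  exact pow_le_pow_left₀ (by norm_num) (by linarith [Real.add_one_le_exp (1 : ℝ)]) k

open Classical in
/-- (K4) `T` adaptive rounds: except on a `2^{-l}` fraction of the tapes the game stops or mixes. -/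
theorem rounds {σ : Type*} {N l T : ℕ} (ρ : σ → List Bool → σ) (hist : σ → List (Fin N → Fin N))
    (done Inv : σ → Prop) {ε : ℝ}
    (hstep : ∀ s r, Inv s → r.length = N → Inv (ρ s r) ∧ (done s → done (ρ s r)) ∧
      (done (ρ s r) ∨ ∃ π, hist (ρ s r) = π :: hist s ∧
        KRV.Split ε (KRV.proj (KRV.walk (hist s)) fun i : Fin N => r.getD i false) π))
    (hinv : ∀ s, Inv s → ∀ π ∈ hist s, Function.Involutive π)
    {s0 : σ} (h0 : Inv s0) (hh : hist s0 = []) (hε : ε ≤ 1 / 2 ^ (2 * l + 6))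
    (hN : 0 < N) (hNl : N ≤ 2 ^ l) (hT : 4 * (4 * l + 7) * (2 * l + 5) ≤ T) :
    (((univ : Finset (Fin (T * N) → Bool)).filter fun v =>
      ¬ (done (itB ρ N T s0 (List.ofFn v)) ∨
        KRV.psi (KRV.walk (hist (itB ρ N T s0 (List.ofFn v)))) ≤ 1 / 16)).card : ℝ) ≤
      2 ^ (T * N) / 2 ^ l := by
  haveI : Nonempty (Fin N) := ⟨⟨0, hN⟩⟩
  set val : σ → ℝ := fun s => if done s then 0 else psi (hist s) with hval
  have val0 : ∀ s, 0 ≤ val s := fun s => by
    simp only [hval]; split_ifs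
    · exact le_rfl
    · exact psi_nonneg _
  set Λ : ℝ := 4 * l + 7 with hΛ
  have Λ1 : 7 ≤ Λ := by have : (0 : ℝ) ≤ l := by positivity
                        linarith
  set e : ℝ := 1 / 2 ^ (2 * l + 6) with he
  have e0 : 0 < e := by positivity
  have hNl' : (N : ℝ) ≤ 2 ^ l := by exact_mod_cast hNl
  have hn : 8 * (Fintype.card (Fin N) : ℝ) ^ 2 ≤ Real.exp (Λ / 2) := by
    rw [Fintype.card_fin]
    calc 8 * (N : ℝ) ^ 2 ≤ 8 * (2 ^ l) ^ 2 := by gcongr
      _ = 2 ^ (2 * l + 3) := by ring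
      _ ≤ Real.exp ((2 * l + 3 : ℕ) : ℝ) := two_pow_le_exp _
      _ ≤ _ := Real.exp_le_exp.2 (by push_cast; linarith)
  have hγ : 1 / (4 * Λ) ≤ 1 := by rw [div_le_one (by linarith)]; linarith
  have hv : ∀ s, Inv s → sumB N (fun r => val (ρ s r)) ≤
      2 ^ N * ((1 - 1 / (4 * Λ)) * val s + 1 / (4 * Λ) * (2 * N * e)) := by
    intro s hs
    by_cases hd : done s
    · have : sumB N (fun r => val (ρ s r)) = 0 := Finset.sum_eq_zero fun v _ => by
        simp only [hval]; rw [if_pos ((hstep s _ hs List.length_ofFn).2.1 hd)]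
      rw [this]
      have := val0 s
      have : 0 ≤ 1 - 1 / (4 * Λ) := by linarith
      positivity
    · have := round_stop isSign_sgB (l := hist s) (hinv s hs) (Λ := Λ) (ε := e) (by linarith) e0.le
        hn (fun v : Fin N → Bool => val (ρ s (List.ofFn v))) fun v => by
          rcases (hstep s _ hs (List.length_ofFn (f := v))).2.2 with h | ⟨π, h1, h2, η, h3⟩
          · left; simp only [hval]; rw [if_pos h]
          · right
            refine ⟨π, η, h2, fun i => le_trans (le_of_eq ?_) ((h3 i).trans hε), ?_⟩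
            · rw [kproj_eq]
              have : (fun j : Fin N => sgB ((List.ofFn v).getD j false)) = fun j => sgB (v j) := by
                funext j; simp [List.getD_eq_getElem?_getD]
              rw [this]
            · simp only [hval]; rw [← h1]; split_ifs
              · exact psi_nonneg _
              · exact le_rfl
      refine this.trans (le_of_eq ?_)
      simp only [hval, if_neg hd, Fintype.card_fun, Fintype.card_bool, Fintype.card_fin]
      push_cast
      congr 2
      field_simp; ring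
  have h1 := sumB_itB_le ρ N Inv val hγ (fun s r a b => (hstep s r a b).1) hv T s0 h0
  have invT : ∀ t s (r : List Bool), Inv s → r.length = t * N → Inv (itB ρ N t s r) := by
    intro t
    induction t with
    | zero => intro s r h _; exact h
    | succ t ih =>
      intro s r h hr
      have hr' : r.length = t * N + N := by rw [hr]; ring
      exact ih _ _ (hstep s _ h (by rw [List.length_take]; omega)).1 (by rw [List.length_drop]; omega)
  have h2 : val s0 ≤ 2 ^ l := by
    simp only [hval]; split_ifs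
    · positivity
    · rw [hh]; exact psi_nil_le.trans (by simpa using hNl')
  have h3 : (1 - 1 / (4 * Λ)) ^ T ≤ 1 / 2 ^ (2 * l + 5) := by
    have hT' : 4 * Λ * (2 * l + 5) ≤ T := by rw [hΛ]; exact_mod_cast hT
    calc (1 - 1 / (4 * Λ)) ^ T ≤ Real.exp (-(1 / (4 * Λ))) ^ T :=
          pow_le_pow_left₀ (by linarith) (by linarith [Real.add_one_le_exp (-(1 / (4 * Λ)))]) T
      _ = Real.exp (-(T / (4 * Λ))) := by rw [← Real.exp_nat_mul]; congr 1; ring
      _ ≤ Real.exp (-((2 * l + 5 : ℕ) : ℝ)) := Real.exp_le_exp.2 (by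
          push_cast
          rw [neg_le_neg_iff, le_div_iff₀ (by linarith)]; linarith)
      _ ≤ _ := by
          rw [Real.exp_neg, ← one_div]
          exact one_div_le_one_div_of_le (by positivity) (two_pow_le_exp _)
  have h4 : (0 : ℝ) ≤ (1 - 1 / (4 * Λ)) ^ T := pow_nonneg (by linarith) _
  have h5 : (1 - 1 / (4 * Λ)) ^ T * val s0 + 2 * N * e * (1 - (1 - 1 / (4 * Λ)) ^ T) ≤
      1 / 2 ^ l / 16 := by
    have a1 : (1 - 1 / (4 * Λ)) ^ T * val s0 ≤ 1 / 2 ^ (2 * l + 5) * 2 ^ l :=
      mul_le_mul h3 h2 (val0 _) (by positivity)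
    have a2 : 2 * N * e * (1 - (1 - 1 / (4 * Λ)) ^ T) ≤ 2 * 2 ^ l * e * 1 := by
      refine mul_le_mul (by gcongr) (by linarith) ?_ (by positivity)
      have : (1 - 1 / (4 * Λ)) ^ T ≤ 1 := pow_le_one₀ (by linarith) (by
        have : 0 ≤ 1 / (4 * Λ) := by positivity
        linarith)
      linarith
    have a3 : (1 : ℝ) / 2 ^ (2 * l + 5) * 2 ^ l + 2 * 2 ^ l * e * 1 = 1 / 2 ^ l / 16 := by
      rw [he]; field_simp; ring
    linarith
  set B := (univ : Finset (Fin (T * N) → Bool)).filter fun v =>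
      ¬ (done (itB ρ N T s0 (List.ofFn v)) ∨
        KRV.psi (KRV.walk (hist (itB ρ N T s0 (List.ofFn v)))) ≤ 1 / 16) with hB
  have h6 : (B.card : ℝ) * (1 / 16) ≤ sumB (T * N) fun l => val (itB ρ N T s0 l) := by
    calc (B.card : ℝ) * (1 / 16) = ∑ _v ∈ B, (1 / 16 : ℝ) := by simp
      _ ≤ ∑ v ∈ B, val (itB ρ N T s0 (List.ofFn v)) := Finset.sum_le_sum fun v hv => by
          have := (Finset.mem_filter.1 hv).2
          rw [not_or, not_le, kpsi_eq (hinv _ (invT T s0 _ h0 List.length_ofFn))] at this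
          simp only [hval]; rw [if_neg this.1]; exact this.2.le
      _ ≤ _ := Finset.sum_le_sum_of_subset_of_nonneg (Finset.subset_univ _) fun v _ _ => val0 _
  have h7 : (B.card : ℝ) * (1 / 16) ≤ 2 ^ (T * N) * (1 / 2 ^ l / 16) :=
    h6.trans (h1.trans (mul_le_mul_of_nonneg_left h5 (by positivity)))
  have e7 : (2 : ℝ) ^ (T * N) * (1 / 2 ^ l / 16) = 2 ^ (T * N) / 2 ^ l * (1 / 16) := by ring
  linarith

/-- (K4) in the form of `bad` (one sample of `T * N` bits). -/
theorem rounds_bad {σ : Type*} {N l T : ℕ} (ρ : σ → List Bool → σ)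
    (hist : σ → List (Fin N → Fin N)) (done Inv : σ → Prop) {ε : ℝ}
    (hstep : ∀ s r, Inv s → r.length = N → Inv (ρ s r) ∧ (done s → done (ρ s r)) ∧
      (done (ρ s r) ∨ ∃ π, hist (ρ s r) = π :: hist s ∧
        KRV.Split ε (KRV.proj (KRV.walk (hist s)) fun i : Fin N => r.getD i false) π))
    (hinv : ∀ s, Inv s → ∀ π ∈ hist s, Function.Involutive π)
    {s0 : σ} (h0 : Inv s0) (hh : hist s0 = []) (hε : ε ≤ 1 / 2 ^ (2 * l + 6))
    (hN : 0 < N) (hNl : N ≤ 2 ^ l) (hT : 4 * (4 * l + 7) * (2 * l + 5) ≤ T) :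
    bad (T * N) (fun r => done (itB ρ N T s0 r) ∨
      KRV.psi (KRV.walk (hist (itB ρ N T s0 r))) ≤ 1 / 16) ≤ 1 / 2 ^ l := by
  have := rounds ρ hist done Inv hstep hinv h0 hh hε hN hNl hT
  unfold bad
  rw [div_le_iff₀ (by positivity), one_div_mul_eq_div]
  refine le_trans (le_of_eq ?_) this
  congr

/-- The integer walk started from a bit string. -/
def iw (Sc : ℕ) (r : List Bool) : List (ℕ → ℕ) → ℕ → ℕ
  | [], i => if r.getD i false then Sc else 0
  | π :: l, i => (iw Sc r l i + iw Sc r l (π i)) / 2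

theorem iw_eq (Sc : ℕ) (r : List Bool) (l : List (ℕ → ℕ)) :
    iw Sc r l = walkN l fun j => Sc * ((r.getD j false).toNat % 2) := by
  induction l with
  | nil => funext i; simp only [iw, walkN_nil]; cases r.getD i false <;> simp
  | cons π l ih => funext i; rw [iw, walkN_cons, ih]

theorem sgN_toNat (b : Bool) : sgN b.toNat = sgB b := by
  cases b <;> simp [sgN, sgB]; norm_num

theorem iw_le (Sc : ℕ) (r : List Bool) (l : List (ℕ → ℕ)) (i : ℕ) : iw Sc r l i ≤ Sc := by
  rw [iw_eq]
  refine walkN_le l (fun j => ?_) i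
  cases r.getD j false <;> simp

theorem iw_approx {N : ℕ} {l : List (ℕ → ℕ)} (hl : ∀ π ∈ l, ∀ i < N, π i < N) (Sc : ℕ)
    (r : List Bool) (i : Fin N) :
    |(iw Sc r l i : ℝ) - ((Sc : ℝ) / 2 *
      KRV.proj (KRV.walk (l.map (finPi N))) (fun j : Fin N => r.getD j false) i + Sc / 2)| ≤
      l.length / 2 := by
  rw [iw_eq, kproj_eq]
  simpa only [sgN_toNat] using walkN_sign hl Sc (fun j => (r.getD j false).toNat) i

/-- A perfect matching between the halves of the units sorted by `iw` is an admissible answer. -/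
theorem iw_split {N Sc T k : ℕ} (hN : 0 < N) (hT0 : 0 < T) {l : List (ℕ → ℕ)}
    (hl : ∀ π ∈ l, ∀ i < N, π i < N) (hT : l.length ≤ T) (hSc : T * 2 ^ (k + 2) ≤ Sc)
    (r : List Bool) {L : List ℕ} {P : List (ℕ × ℕ)} (hP : Matches L P)
    (hL : L.Perm (List.range N)) (hs : L.Pairwise fun i j => iw Sc r l i ≤ iw Sc r l j) :
    KRV.Split (1 / 2 ^ k)
      (KRV.proj (KRV.walk (l.map (finPi N))) fun j : Fin N => r.getD j false)
      (finPi N (piOf P)) := by
  have h1 : T ≤ Sc := le_trans (Nat.le_mul_of_pos_right _ (by positivity)) hSc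
  rw [iw_eq] at hs
  obtain ⟨η, h⟩ := admissible hN (by omega) hl hT h1 (fun j => (r.getD j false).toNat) hP hL hs
  refine ⟨hP.invol hL, η, fun i => ?_⟩
  rw [kproj_eq]
  have := h i
  simp only [sgN_toNat] at this
  refine this.trans ?_
  have h2 : (T : ℝ) * 2 ^ (k + 2) ≤ Sc := by exact_mod_cast hSc
  have h3 : (0 : ℝ) < Sc := by exact_mod_cast (by omega : 0 < Sc)
  have h4 : (0 : ℝ) ≤ T * 2 ^ k := by positivity
  rw [div_le_div_iff₀ h3 (by positivity)]
  rw [pow_add] at h2
  nlinarith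

end Crest.Agent.N325.Krv
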