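import Mathlib

/-!
# Row 325 (helper27): from a preflow to pairs, by walking tokens along unit arcs
-/

set_option autoImplicit false
open Finset Function

namespace Crest.Agent.N325.Tok

/-- state: unit arcs `out v`, free sink units `snk v`, waiting tokens `(unit, vertex)`, the pairs
found and the units left over -/
structure St where
  out : ℕ → List ℕ
  snk : ℕ → List ℕ
  todo : List (ℕ × ℕ)
  prs : List (ℕ × ℕ)
  unm : List ℕ

/-- one move of the first token -/
def step (s : St) : St :=
  match s.todo with
  | [] => s
  | (i, v) :: r =>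
    match s.snk v with
    | j :: q => { s with snk := update s.snk v q, todo := r, prs := (i, j) :: s.prs }
    | [] =>
      match s.out v with
      | w :: q => { s with out := update s.out v q, todo := (i, w) :: r }
      | [] => { s with todo := r, unm := i :: s.unm }

/-- the four kinds of steps -/
theorem step_cases {P : St → Prop} (s : St) (h0 : s.todo = [] → P s)
    (h1 : ∀ i v r j q, s.todo = (i, v) :: r → s.snk v = j :: q →
      P { s with snk := update s.snk v q, todo := r, prs := (i, j) :: s.prs })
    (h2 : ∀ i v r w q, s.todo = (i, v) :: r → s.snk v = [] → s.out v = w :: q →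
      P { s with out := update s.out v q, todo := (i, w) :: r })
    (h3 : ∀ i v r, s.todo = (i, v) :: r → s.snk v = [] → s.out v = [] →
      P { s with todo := r, unm := i :: s.unm }) : P (step s) := by
  unfold step
  split
  · exact h0 ‹_›
  · split
    · exact h1 _ _ _ _ _ ‹_› ‹_›
    · split
      · exact h2 _ _ _ _ _ ‹_› ‹_› ‹_›
      · exact h3 _ _ _ ‹_› ‹_› ‹_›

theorem sum_upd {α M : Type*} [AddCommMonoid M] {n v : ℕ} (hv : v < n) (f : ℕ → α) (q : α)
    (g : ℕ → α → M) :
    ∑ u ∈ range n, g u (update f v q u) + g v (f v) = ∑ u ∈ range n, g u (f u) + g v q := by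
  have hm := mem_range.2 hv
  rw [← add_sum_erase _ _ hm, ← add_sum_erase _ (fun u => g u (f u)) hm, update_self,
    sum_congr rfl fun u hu => by rw [update_of_ne (ne_of_mem_erase hu)]]
  ac_rfl

/-- all vertices are below `n`, sink units sit where `loc` says -/
structure Wf (n : ℕ) (loc : ℕ → ℕ) (s : St) : Prop where
  td : ∀ p ∈ s.todo, p.2 < n
  ot : ∀ v, ∀ w ∈ s.out v, w < n
  sk : ∀ v, ∀ j ∈ s.snk v, loc j = v

variable {n : ℕ} {loc : ℕ → ℕ} {s : St}

theorem Wf.step (h : Wf n loc s) : Wf n loc (step s) := by
  refine step_cases s (fun _ => h) ?_ ?_ ?_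
  · intro i v r j q e1 e2
    refine ⟨fun p hp => h.td p (e1 ▸ List.mem_cons_of_mem _ hp), h.ot, fun u k hk => ?_⟩
    by_cases e : u = v
    · subst e
      exact h.sk u k (e2 ▸ List.mem_cons_of_mem _ (by simpa using hk))
    · exact h.sk u k (by simpa [update_of_ne e] using hk)
  · intro i v r w q e1 _ e3
    refine ⟨fun p hp => ?_, fun u k hk => ?_, h.sk⟩
    · rcases List.mem_cons.1 hp with rfl | hp
      · exact h.ot v w (e3 ▸ List.mem_cons_self)
      · exact h.td p (e1 ▸ List.mem_cons_of_mem _ hp)
    · by_cases e : u = v
      · subst e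
        exact h.ot u k (e3 ▸ List.mem_cons_of_mem _ (by simpa using hk))
      · exact h.ot u k (by simpa [update_of_ne e] using hk)
  · intro i v r e1 _ _
    exact ⟨fun p hp => h.td p (e1 ▸ List.mem_cons_of_mem _ hp), h.ot, h.sk⟩

theorem Wf.hd (h : Wf n loc s) {i v : ℕ} {r : List (ℕ × ℕ)} (e : s.todo = (i, v) :: r) : v < n :=
  h.td (i, v) (e ▸ List.mem_cons_self)

/-- the work left -/
def work (n : ℕ) (s : St) : ℕ := s.todo.length + ∑ v ∈ range n, (s.out v).length

theorem Wf.work_step (h : Wf n loc s) :
    (Tok.step s).todo = [] ∨ work n (Tok.step s) + 1 = work n s := by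
  refine step_cases (P := fun t => t.todo = [] ∨ work n t + 1 = work n s) s .inl ?_ ?_ ?_
  · intro i v r j q e1 _
    right; simp only [work, e1, List.length_cons]; omega
  · intro i v r w q e1 _ e3
    have := sum_upd (h.hd e1) s.out q fun _ l => l.length
    right; simp only [work, e1, e3, List.length_cons] at this ⊢; omega
  · intro i v r e1 _ _
    right; simp only [work, e1, List.length_cons]; omega

theorem step_nil (h : s.todo = []) : step s = s := by
  unfold step; rw [h]

theorem Wf.iter (h : Wf n loc s) (k : ℕ) : Wf n loc (Tok.step^[k] s) := by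
  induction k generalizing s with
  | zero => exact h
  | succ k ih => exact ih h.step

/-- the walk ends after `work` steps -/
theorem Wf.done (h : Wf n loc s) {k : ℕ} (hk : work n s ≤ k) : (Tok.step^[k] s).todo = [] := by
  induction k generalizing s with
  | zero =>
    have : s.todo.length = 0 := by unfold work at hk; omega
    exact List.length_eq_zero_iff.1 this
  | succ k ih =>
    rw [iterate_succ_apply]
    rcases h.work_step with e | e
    · rw [iterate_fixed (step_nil e)]; exact e
    · exact ih h.step (by omega)

/-- the source units -/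
def srcs (s : St) : Multiset ℕ := s.todo.map Prod.fst + s.prs.map Prod.fst + s.unm

/-- the sink units -/
def snks (n : ℕ) (s : St) : Multiset ℕ :=
  s.prs.map Prod.snd + ∑ v ∈ range n, (s.snk v : Multiset ℕ)

theorem srcs_step (s : St) : srcs (step s) = srcs s := by
  refine step_cases (P := fun t => srcs t = srcs s) s (fun _ => rfl) ?_ ?_ ?_
  · intro i v r j q e1 _
    simp only [srcs, e1, List.map_cons, ← Multiset.cons_coe, ← Multiset.singleton_add]
    ac_rfl
  · intro i v r w q e1 _ _
    simp only [srcs, e1, List.map_cons]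
  · intro i v r e1 _ _
    simp only [srcs, e1, List.map_cons, ← Multiset.cons_coe, ← Multiset.singleton_add]
    ac_rfl

theorem Wf.snks_step (h : Wf n loc s) : snks n (Tok.step s) = snks n s := by
  refine step_cases (P := fun t => snks n t = snks n s) s (fun _ => rfl) ?_ (fun _ _ _ _ _ _ _ _ => rfl)
    fun _ _ _ _ _ _ => rfl
  intro i v r j q e1 e2
  have := sum_upd (h.hd e1) s.snk q fun _ l => (l : Multiset ℕ)
  rw [e2, ← Multiset.cons_coe, ← Multiset.singleton_add, ← add_assoc, add_left_inj] at this
  simp only [snks, List.map_cons, ← Multiset.cons_coe, ← Multiset.singleton_add, ← this]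
  ac_rfl

/-- unit arcs leaving `T` -/
def cross (n : ℕ) (out : ℕ → List ℕ) (T : ℕ → Bool) : ℕ :=
  ∑ v ∈ range n, if T v then (out v).countP (fun w => !T w) else 0

/-- pairs and tokens which have left `T`, and arcs which still leave it -/
def pot (n : ℕ) (loc : ℕ → ℕ) (T : ℕ → Bool) (s : St) : ℕ :=
  s.prs.countP (fun p => T (loc p.1) && !T (loc p.2)) +
    s.todo.countP (fun p => T (loc p.1) && !T p.2) + cross n s.out T

theorem Wf.pot_step (h : Wf n loc s) (T : ℕ → Bool) : pot n loc T (Tok.step s) ≤ pot n loc T s := by
  refine step_cases (P := fun t => pot n loc T t ≤ pot n loc T s) s (fun _ => le_rfl) ?_ ?_ ?_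
  · intro i v r j q e1 e2
    have := h.sk v j (e2 ▸ List.mem_cons_self)
    simp only [pot, e1, List.countP_cons, this]; omega
  · intro i v r w q e1 _ e3
    have := sum_upd (h.hd e1) s.out q fun u l => if T u then l.countP (fun w => !T w) else 0
    simp only [pot, cross, e1, e3, List.countP_cons] at this ⊢
    revert this
    cases T v <;> cases T w <;> cases T (loc i) <;> simp <;> omega
  · intro i v r e1 _ _
    simp only [pot, e1, List.countP_cons]; omega

/-- tokens at `v` plus arcs into `v` minus arcs out of `v` minus free sink units at `v` -/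
def bal (n : ℕ) (s : St) (v : ℕ) : ℤ :=
  (s.todo.countP (fun p => p.2 = v) : ℕ) + (∑ u ∈ range n, (s.out u).count v : ℕ) -
    (s.out v).length - (s.snk v).length

/-- left over units and the excess -/
def exc (n : ℕ) (s : St) : ℕ := s.unm.length + ∑ v ∈ range n, (bal n s v).toNat

theorem Wf.exc_step (h : Wf n loc s) : exc n (Tok.step s) = exc n s := by
  refine step_cases (P := fun t => exc n t = exc n s) s (fun _ => rfl) ?_ ?_ ?_
  · intro i v r j q e1 e2
    refine congrArg (s.unm.length + ·) (sum_congr rfl fun u _ => congrArg Int.toNat ?_)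
    by_cases e : u = v
    · subst e
      simp only [bal, e1, e2, update_self, List.countP_cons, List.length_cons]; simp; omega
    · simp only [bal, e1, update_of_ne e, List.countP_cons]; simp [Ne.symm e]
  · intro i v r w q e1 e2 e3
    refine congrArg (s.unm.length + ·) (sum_congr rfl fun u _ => congrArg Int.toNat ?_)
    have := sum_upd (h.hd e1) s.out q fun _ l => l.count u
    simp only [e3, List.count_cons] at this
    by_cases e : u = v
    · subst e
      simp only [bal, e1, e3, update_self, List.countP_cons, List.length_cons]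
      by_cases e' : w = u <;> simp [e', -Nat.cast_sum] at this ⊢ <;> omega
    · simp only [bal, e1, update_of_ne e, List.countP_cons]
      by_cases e' : w = u <;> simp [e', Ne.symm e, -Nat.cast_sum] at this ⊢ <;> omega
  · intro i v r e1 e2 e3
    have hm := mem_range.2 (h.hd e1)
    simp only [exc, List.length_cons]
    rw [← add_sum_erase _ _ hm, ← add_sum_erase _ (fun u => (bal n s u).toNat) hm,
      sum_congr rfl (g := fun u => (bal n s u).toNat) fun u hu => by
        simp [bal, e1, (ne_of_mem_erase hu).symm]]
    generalize ∑ u ∈ (range n).erase v, (bal n s u).toNat = X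
    simp only [bal, e1, e2, e3, List.countP_cons, List.length_nil, decide_true, if_true]
    omega

/-- **the token walk** -/
theorem Wf.walk (h : Wf n loc s) (k : ℕ) :
    srcs (Tok.step^[k] s) = srcs s ∧ snks n (Tok.step^[k] s) = snks n s ∧
      (∀ T, pot n loc T (Tok.step^[k] s) ≤ pot n loc T s) ∧ exc n (Tok.step^[k] s) = exc n s := by
  induction k generalizing s with
  | zero => exact ⟨rfl, rfl, fun _ => le_rfl, rfl⟩
  | succ k ih =>
    obtain ⟨a, b, c, d⟩ := ih h.step
    exact ⟨a.trans (srcs_step s), b.trans h.snks_step, fun T => (c T).trans (h.pot_step T),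
      d.trans h.exc_step⟩

/-- the start: every source unit at its place -/
def init (loc : ℕ → ℕ) (out snk : ℕ → List ℕ) (A : List ℕ) : St :=
  ⟨out, snk, A.map fun i => (i, loc i), [], []⟩

/-- what the walk returns -/
structure Res (n : ℕ) (loc : ℕ → ℕ) (out snk : ℕ → List ℕ) (A : List ℕ) (t : St) : Prop where
  src : (t.prs.map Prod.fst : Multiset ℕ) + t.unm = A
  tgt : (t.prs.map Prod.snd : Multiset ℕ) + ∑ v ∈ range n, (t.snk v : Multiset ℕ) =
    ∑ v ∈ range n, (snk v : Multiset ℕ)
  crs : ∀ T : ℕ → Bool, t.prs.countP (fun p => T (loc p.1) && !T (loc p.2)) ≤ cross n out T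
  unm : t.unm.length ≤ ∑ v ∈ range n, ((A.countP (fun i => loc i = v) : ℕ) +
    (∑ u ∈ range n, (out u).count v : ℕ) - (out v).length - (snk v).length : ℤ).toNat

theorem res_walk {out snk : ℕ → List ℕ} {A : List ℕ} (hA : ∀ i ∈ A, loc i < n)
    (ho : ∀ v, ∀ w ∈ out v, w < n) (hs : ∀ v, ∀ j ∈ snk v, loc j = v) {k : ℕ}
    (hk : A.length + ∑ v ∈ range n, (out v).length ≤ k) :
    (step^[k] (init loc out snk A)).todo = [] ∧
      Res n loc out snk A (step^[k] (init loc out snk A)) := by
  have w : Wf n loc (init loc out snk A) := ⟨by simpa [init] using hA, ho, hs⟩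
  have e := w.done (k := k) (by simpa [work, init] using hk)
  obtain ⟨a, b, c, d⟩ := w.walk k
  refine ⟨e, ?_⟩
  generalize step^[k] (init loc out snk A) = t at *
  refine ⟨?_, ?_, fun T => ?_, ?_⟩
  · simpa [srcs, e, init, Function.comp_def] using a
  · simpa [snks, init] using b
  · have := c T
    simp only [pot, e, init, List.countP_nil, List.countP_map, Function.comp_def, Bool.and_not_self,
      List.countP_false, const_apply] at this
    omega
  · have : t.unm.length ≤ exc n t := Nat.le_add_right _ _
    rw [d] at this
    simpa only [exc, bal, init, List.countP_map, Function.comp_def, List.length_nil, zero_add]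
      using this

end Crest.Agent.N325.Tok
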