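import Mathlib

/-! KRV cut-matching game, deterministic part: lazy walks along matchings, potential, mixing ⇒ expansion. -/

set_option autoImplicit false

namespace Crest.Agent.N325.Krv

open Finset

variable {ι : Type*}

/-- One lazy step along the matching `π`. -/
noncomputable def avg (π : ι → ι) (x : ι → ℝ) : ι → ℝ := fun i => (x i + x (π i)) / 2

/-- The walk along a list of matchings; the head of the list is the most recent matching. -/
noncomputable def walk : List (ι → ι) → (ι → ℝ) → ι → ℝ
  | [], x => x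
  | π :: l, x => avg π (walk l x)

@[simp] theorem walk_nil (x : ι → ℝ) : walk [] x = x := rfl
theorem walk_cons (π : ι → ι) (l : List (ι → ι)) (x : ι → ℝ) (i : ι) :
    walk (π :: l) x i = (walk l x i + walk l x (π i)) / 2 := rfl

/-- All matchings of the list are involutions (fixed points allowed). -/
def Invol (l : List (ι → ι)) : Prop := ∀ π ∈ l, Function.Involutive π

theorem Invol.nil : Invol ([] : List (ι → ι)) := by intro π h; simp at h
theorem Invol.cons {π : ι → ι} {l : List (ι → ι)} (h : Function.Involutive π) (hl : Invol l) :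
    Invol (π :: l) := by
  intro p hp
  rcases List.mem_cons.1 hp with rfl | hp
  · exact h
  · exact hl p hp
theorem Invol.head {π : ι → ι} {l : List (ι → ι)} (h : Invol (π :: l)) : Function.Involutive π :=
  h π (by simp)
theorem Invol.tail {π : ι → ι} {l : List (ι → ι)} (h : Invol (π :: l)) : Invol l :=
  fun p hp => h p (by simp [hp])

theorem walk_ge (l : List (ι → ι)) {x : ι → ℝ} {a : ℝ} (h : ∀ i, a ≤ x i) (i : ι) :
    a ≤ walk l x i := by
  induction l generalizing i with
  | nil => exact h i
  | cons π l ih => rw [walk_cons]; have := ih i; have := ih (π i); linarith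

theorem walk_le (l : List (ι → ι)) {x : ι → ℝ} {a : ℝ} (h : ∀ i, x i ≤ a) (i : ι) :
    walk l x i ≤ a := by
  induction l generalizing i with
  | nil => exact h i
  | cons π l ih => rw [walk_cons]; have := ih i; have := ih (π i); linarith

theorem walk_affine (l : List (ι → ι)) (x : ι → ℝ) (a b : ℝ) (i : ι) :
    walk l (fun j => a * x j + b) i = a * walk l x i + b := by
  induction l generalizing i with
  | nil => rfl
  | cons π l ih => rw [walk_cons, walk_cons, ih, ih]; ring

variable [Fintype ι]

theorem sum_comp_invol {π : ι → ι} (h : Function.Involutive π) (y : ι → ℝ) :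
    ∑ i, y (π i) = ∑ i, y i := Equiv.sum_comp (h.toPerm π) y

theorem sum_walk {l : List (ι → ι)} (hl : Invol l) (x : ι → ℝ) : ∑ i, walk l x i = ∑ i, x i := by
  induction l with
  | nil => rfl
  | cons π l ih =>
    simp only [walk_cons]
    rw [← Finset.sum_div, Finset.sum_add_distrib, sum_comp_invol hl.head (walk l x), ih hl.tail]
    ring

variable [DecidableEq ι]

/-- Entry `(i, j)` of the walk matrix. -/
noncomputable def ent (l : List (ι → ι)) (i j : ι) : ℝ := walk l (Pi.single j 1) i

theorem ent_cons (π : ι → ι) (l : List (ι → ι)) (i j : ι) :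
    ent (π :: l) i j = (ent l i j + ent l (π i) j) / 2 := rfl

theorem walk_eq_sum (l : List (ι → ι)) (x : ι → ℝ) (i : ι) :
    walk l x i = ∑ j, ent l i j * x j := by
  induction l generalizing i with
  | nil => simp [ent, Pi.single_apply]
  | cons π l ih =>
    rw [walk_cons, ih, ih, ← Finset.sum_add_distrib, Finset.sum_div]
    refine Finset.sum_congr rfl fun j _ => ?_
    rw [ent_cons]; ring

theorem sum_ent_col {l : List (ι → ι)} (hl : Invol l) (j : ι) : ∑ i, ent l i j = 1 := by
  unfold ent; rw [sum_walk hl]; simp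

/-- Centred entry. -/
noncomputable def cen (l : List (ι → ι)) (i j : ι) : ℝ := ent l i j - 1 / (Fintype.card ι : ℝ)

/-- The KRV potential. -/
noncomputable def psi (l : List (ι → ι)) : ℝ := ∑ i, ∑ j, cen l i j ^ 2

theorem psi_nonneg (l : List (ι → ι)) : 0 ≤ psi l :=
  Finset.sum_nonneg fun _ _ => Finset.sum_nonneg fun _ _ => sq_nonneg _

theorem psi_nil_le : psi ([] : List (ι → ι)) ≤ Fintype.card ι := by
  rcases Nat.eq_zero_or_pos (Fintype.card ι) with h0 | hpos
  · have : IsEmpty ι := Fintype.card_eq_zero_iff.1 h0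
    simp [psi]
  have hn : (0 : ℝ) < Fintype.card ι := by exact_mod_cast hpos
  have h1 : ∀ i : ι, ∑ j, cen ([] : List (ι → ι)) i j ^ 2 ≤ 1 := by
    intro i
    have : ∀ j, cen ([] : List (ι → ι)) i j ^ 2 =
        (if i = j then 1 - 2 / (Fintype.card ι : ℝ) else 0) + 1 / (Fintype.card ι : ℝ) ^ 2 := by
      intro j
      simp only [cen, ent, walk_nil, Pi.single_apply]
      split_ifs <;> field_simp <;> ring
    simp only [this, Finset.sum_add_distrib, Finset.sum_ite_eq, Finset.mem_univ, if_true,
      Finset.sum_const, Finset.card_univ, nsmul_eq_mul]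
    have e : (Fintype.card ι : ℝ) * (1 / (Fintype.card ι : ℝ) ^ 2) = 1 / Fintype.card ι := by
      field_simp
    rw [e]
    have : 0 < 1 / (Fintype.card ι : ℝ) := by positivity
    have e2 : 2 / (Fintype.card ι : ℝ) = 2 * (1 / Fintype.card ι) := by ring
    linarith
  calc psi ([] : List (ι → ι)) ≤ ∑ _i : ι, (1 : ℝ) := Finset.sum_le_sum fun i _ => h1 i
    _ = _ := by simp

/-- Squared distance of two rows. -/
noncomputable def dist2 (l : List (ι → ι)) (i k : ι) : ℝ := ∑ j, (cen l i j - cen l k j) ^ 2

theorem dist2_nonneg (l : List (ι → ι)) (i k : ι) : 0 ≤ dist2 l i k :=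
  Finset.sum_nonneg fun _ _ => sq_nonneg _

/-- The exact drop of the potential in one round. -/
theorem psi_cons {π : ι → ι} (h : Function.Involutive π) (l : List (ι → ι)) :
    psi (π :: l) = psi l - (∑ i, dist2 l i (π i)) / 4 := by
  have e : ∀ i j, cen (π :: l) i j ^ 2 =
      (cen l i j ^ 2 + cen l (π i) j ^ 2) / 2 - (cen l i j - cen l (π i) j) ^ 2 / 4 := by
    intro i j; simp only [cen, ent_cons]; ring
  have e2 : ∑ i, ∑ j, cen l (π i) j ^ 2 = psi l :=
    sum_comp_invol h (fun i => ∑ j, cen l i j ^ 2)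
  unfold psi dist2 at *
  simp only [e, Finset.sum_sub_distrib, ← Finset.sum_div, Finset.sum_add_distrib]
  rw [e2]; ring

theorem psi_cons_le {π : ι → ι} (h : Function.Involutive π) (l : List (ι → ι)) :
    psi (π :: l) ≤ psi l := by
  rw [psi_cons h]
  have : 0 ≤ ∑ i, dist2 l i (π i) := Finset.sum_nonneg fun _ _ => dist2_nonneg _ _ _
  linarith

theorem sum_dist2_le (l : List (ι → ι)) :
    ∑ i, ∑ k, dist2 l i k ≤ 4 * Fintype.card ι * psi l := by
  have h : ∀ i k, dist2 l i k ≤ 2 * ∑ j, cen l i j ^ 2 + 2 * ∑ j, cen l k j ^ 2 := by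
    intro i k
    rw [dist2, Finset.mul_sum, Finset.mul_sum, ← Finset.sum_add_distrib]
    exact Finset.sum_le_sum fun j _ => by nlinarith [sq_nonneg (cen l i j + cen l k j)]
  calc ∑ i, ∑ k, dist2 l i k
      ≤ ∑ i, ∑ k, (2 * ∑ j, cen l i j ^ 2 + 2 * ∑ j, cen l k j ^ 2) :=
        Finset.sum_le_sum fun i _ => Finset.sum_le_sum fun k _ => h i k
    _ = 4 * Fintype.card ι * psi l := by
        simp only [Finset.sum_add_distrib, Finset.sum_const, Finset.card_univ, nsmul_eq_mul,
          ← Finset.mul_sum, psi]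
        ring

/-- Number of elements of `S` that the matching `π` sends out of `S`. -/
def cross (π : ι → ι) (S : Finset ι) : ℕ := (S.filter fun i => π i ∉ S).card

theorem sum_walk_ind_ge {l : List (ι → ι)} (hl : Invol l) (S : Finset ι) :
    (S.card : ℝ) - ((l.map fun π => cross π S).sum : ℕ) / 2 ≤
      ∑ i ∈ S, walk l (fun j => if j ∈ S then 1 else 0) i := by
  induction l with
  | nil =>
    simp only [List.map_nil, List.sum_nil, walk_nil]
    rw [Finset.sum_congr rfl (g := fun _ => (1 : ℝ)) fun i hi => by simp [hi]]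
    simp
  | cons π l ih =>
    have ih := ih hl.tail
    have hπ := hl.head
    set y := walk l (fun j => if j ∈ S then (1 : ℝ) else 0) with hy
    have y0 : ∀ i, 0 ≤ y i := walk_ge l fun j => by split_ifs <;> norm_num
    have y1 : ∀ i, y i ≤ 1 := walk_le l fun j => by split_ifs <;> norm_num
    have h1 : ∑ i ∈ S.filter (fun i => π i ∈ S), y (π i) ≤ ∑ i ∈ S, y (π i) :=
      Finset.sum_le_sum_of_subset_of_nonneg (Finset.filter_subset _ _) fun i _ _ => y0 _
    have h2 : ∑ i ∈ S.filter (fun i => π i ∈ S), y (π i) =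
        ∑ i ∈ S.filter (fun i => π i ∈ S), y i := by
      refine Finset.sum_bij' (fun i _ => π i) (fun i _ => π i) ?_ ?_ ?_ ?_ ?_
      · intro i hi; simp only [Finset.mem_filter] at hi ⊢; exact ⟨hi.2, by rw [hπ i]; exact hi.1⟩
      · intro i hi; simp only [Finset.mem_filter] at hi ⊢; exact ⟨hi.2, by rw [hπ i]; exact hi.1⟩
      · intro i _; exact hπ i
      · intro i _; exact hπ i
      · intro i _; rfl
    have h3 := Finset.sum_filter_add_sum_filter_not S (fun i => π i ∈ S) y
    have h4 : ∑ i ∈ S.filter (fun i => π i ∉ S), y i ≤ cross π S := by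
      calc _ ≤ ∑ _i ∈ S.filter (fun i => π i ∉ S), (1 : ℝ) := Finset.sum_le_sum fun i _ => y1 i
        _ = _ := by simp [cross]
    simp only [walk_cons, List.map_cons, List.sum_cons, Nat.cast_add, ← hy]
    rw [← Finset.sum_div, Finset.sum_add_distrib]
    linarith

/-- (K1) Mixing gives expansion of the union of the matchings. -/
theorem card_le_cross {l : List (ι → ι)} (hl : Invol l) (hψ : psi l ≤ 1 / 16) (S : Finset ι)
    (hS : 2 * S.card ≤ Fintype.card ι) : S.card ≤ 2 * (l.map fun π => cross π S).sum := by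
  rcases S.eq_empty_or_nonempty with rfl | hne
  · simp
  have hs : (0 : ℝ) < S.card := by exact_mod_cast hne.card_pos
  have hS' : (2 : ℝ) * S.card ≤ Fintype.card ι := by exact_mod_cast hS
  have hn : (0 : ℝ) < Fintype.card ι := by linarith
  have h1 := sum_walk_ind_ge hl S
  have h2 : ∑ i ∈ S, walk l (fun j => if j ∈ S then (1 : ℝ) else 0) i =
      ∑ p ∈ S ×ˢ S, cen l p.1 p.2 + S.card * S.card / Fintype.card ι := by
    rw [Finset.sum_product]
    simp only [walk_eq_sum, cen, mul_ite, mul_one, mul_zero, Finset.sum_ite_mem, Finset.univ_inter,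
      Finset.sum_sub_distrib, Finset.sum_const, nsmul_eq_mul]
    ring
  have h3 : (∑ p ∈ S ×ˢ S, cen l p.1 p.2) ^ 2 ≤ (S.card * S.card) * (1 / 16) := by
    have := sq_sum_le_card_mul_sum_sq (s := S ×ˢ S) (f := fun p => cen l p.1 p.2)
    rw [Finset.card_product] at this
    push_cast at this
    refine this.trans (mul_le_mul_of_nonneg_left ?_ (by positivity))
    refine le_trans ?_ hψ
    rw [psi, ← Finset.sum_product' (f := fun i j => cen l i j ^ 2)]
    exact Finset.sum_le_sum_of_subset_of_nonneg (by simp) fun _ _ _ => sq_nonneg _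
  have h4 : ∑ p ∈ S ×ˢ S, cen l p.1 p.2 ≤ S.card / 4 := by
    refine abs_le_of_sq_le_sq' ?_ (by positivity) |>.2
    nlinarith
  have h5 : (S.card : ℝ) * S.card / Fintype.card ι ≤ S.card / 2 := by
    rw [div_le_iff₀ hn]; nlinarith
  have : (S.card : ℝ) ≤ 2 * (((l.map fun π => cross π S).sum : ℕ) : ℝ) := by linarith
  exact_mod_cast this

end Crest.Agent.N325.Krv
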